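import Vale.Agent.P272.K.Inv.Chart
import Mathlib.Analysis.Analytic.Uniqueness
import Mathlib.RingTheory.Adjoin.Polynomial.Basic
import Mathlib.Analysis.Analytic.Constructions

/-!
# P299 / H908: projective data on a complex manifold and the field of rational functions

`ProjData n X`: homogeneous coordinates of an injective holomorphic immersion of `X` into a
projective space. `D.R`: the ring of polynomials in the affine coordinates on `D.Aff`.
-/

set_option linter.all false

open scoped Manifold ContDiff Topology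
open Filter Set Metric
open Vale.Agent.P272.K

noncomputable section

namespace Vale.Agent.P299.H908

section hol

variable {n : ℕ} {X : Type*} [TopologicalSpace X] [ChartedSpace (Cm n) X]
  {F : Type*} [NormedAddCommGroup F] [NormedSpace ℂ F]

/-- `g : X → F` is holomorphic near `x` -/
def HolAt (n : ℕ) {X : Type*} [TopologicalSpace X] [ChartedSpace (Cm n) X]
    {F : Type*} [NormedAddCommGroup F] [NormedSpace ℂ F] (g : X → F) (x : X) : Prop :=
  ∀ e : Chart n X, At e x → AnalyticAt ℂ (fun z => g (e.symm z)) (e x)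

lemma at_chartAt' (x : X) : At (chartAt (Cm n) x : Chart n X) x :=
  ⟨chart_mem_atlas (Cm n) x, mem_chart_source (Cm n) x⟩

lemma HolAt.congr {g h : X → F} {x : X} (hg : HolAt n g x) (he : g =ᶠ[𝓝 x] h) : HolAt n h x := by
  intro e hx
  refine (hg e hx).congr ?_
  have h1 : Tendsto e.symm (𝓝 (e x)) (𝓝 x) := by
    have := (e.continuousAt_symm hx.mem_target).tendsto
    rwa [hx.left_inv] at this
  exact h1.eventually he

lemma HolAt.continuousAt {g : X → F} {x : X} (hg : HolAt n g x) : ContinuousAt g x := by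
  have hx := at_chartAt' (n := n) x
  have h1 := (hg _ hx).continuousAt
  have h2 : ContinuousAt (chartAt (Cm n) x) x := (chartAt (Cm n) x).continuousAt hx.2
  have h3 : ContinuousAt (fun y => g ((chartAt (Cm n) x).symm (chartAt (Cm n) x y))) x :=
    ContinuousAt.comp (g := fun z => g ((chartAt (Cm n) x).symm z)) h1 h2
  refine h3.congr ?_
  filter_upwards [(chartAt (Cm n) x).open_source.mem_nhds hx.2] with y hy
  rw [(chartAt (Cm n) x).left_inv hy]

lemma HolAt.eventually [CompleteSpace F] {g : X → F} {x : X} [IsManifold 𝓘(ℂ, Cm n) ω X]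
    (hg : HolAt n g x) :
    ∀ᶠ y in 𝓝 x, HolAt n g y := by
  have hx := at_chartAt' (n := n) x
  set e := chartAt (Cm n) x with he
  have h1 := (hg _ hx).eventually_analyticAt
  have h2 : ContinuousAt e x := e.continuousAt hx.2
  filter_upwards [h2.eventually h1, e.open_source.mem_nhds hx.2] with y hy hys
  intro e' hy'
  have hye : At e y := ⟨hx.1, hys⟩
  have h3 := transition hy' hye
  have h4 : AnalyticAt ℂ (fun z => e (e'.symm z)) (e' y) := h3.analyticAt
  have h5 : AnalyticAt ℂ (fun z => g (e.symm (e (e'.symm z)))) (e' y) := by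
    refine AnalyticAt.comp (g := fun z => g (e.symm z)) (f := fun z => e (e'.symm z)) ?_ h4
    show AnalyticAt ℂ (fun z => g (e.symm z)) (e (e'.symm (e' y)))
    rw [hy'.left_inv]
    exact hy
  refine h5.congr ?_
  filter_upwards [hy'.nhds_at hye] with z hz
  rw [hz.2.2.left_inv]

lemma HolAt.of_chart [IsManifold 𝓘(ℂ, Cm n) ω X] {g : X → F} {x : X} {e : Chart n X}
    (hx : At e x) (hg : AnalyticAt ℂ (fun z => g (e.symm z)) (e x)) : HolAt n g x := by
  intro e' hx'
  have h3 := transition hx' hx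
  have h4 : AnalyticAt ℂ (fun z => e (e'.symm z)) (e' x) := h3.analyticAt
  have h5 : AnalyticAt ℂ (fun z => g (e.symm (e (e'.symm z)))) (e' x) := by
    refine AnalyticAt.comp (g := fun z => g (e.symm z)) (f := fun z => e (e'.symm z)) ?_ h4
    show AnalyticAt ℂ (fun z => g (e.symm z)) (e (e'.symm (e' x)))
    rw [hx'.left_inv]
    exact hg
  refine h5.congr ?_
  filter_upwards [hx'.nhds_at hx] with z hz
  rw [hz.2.2.left_inv]

lemma HolAt.add {g h : X → ℂ} {x : X} (hg : HolAt n g x) (hh : HolAt n h x) :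
    HolAt n (fun y => g y + h y) x := fun e hx => (hg e hx).add (hh e hx)

lemma HolAt.mul {g h : X → ℂ} {x : X} (hg : HolAt n g x) (hh : HolAt n h x) :
    HolAt n (fun y => g y * h y) x := fun e hx => (hg e hx).mul (hh e hx)

lemma HolAt.sub {g h : X → ℂ} {x : X} (hg : HolAt n g x) (hh : HolAt n h x) :
    HolAt n (fun y => g y - h y) x := fun e hx => (hg e hx).sub (hh e hx)

lemma HolAt.pow {g : X → ℂ} {x : X} (hg : HolAt n g x) (k : ℕ) :
    HolAt n (fun y => g y ^ k) x := fun e hx => (hg e hx).pow k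

lemma HolAt.const (c : F) (x : X) : HolAt n (fun _ : X => c) x := fun e hx => analyticAt_const

lemma HolAt.div {g h : X → ℂ} {x : X} (hg : HolAt n g x) (hh : HolAt n h x) (h0 : h x ≠ 0) :
    HolAt n (fun y => g y / h y) x := fun e hx => (hg e hx).div (hh e hx) (by
      show h (e.symm (e x)) ≠ 0
      rwa [hx.left_inv])

lemma HolAt.inv {h : X → ℂ} {x : X} (hh : HolAt n h x) (h0 : h x ≠ 0) :
    HolAt n (fun y => (h y)⁻¹) x := fun e hx => (hh e hx).inv (by
      show h (e.symm (e x)) ≠ 0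
      rwa [hx.left_inv])

lemma HolAt.sum {ι : Type*} {s : Finset ι} {g : ι → X → ℂ} {x : X}
    (hg : ∀ i ∈ s, HolAt n (g i) x) : HolAt n (fun y => ∑ i ∈ s, g i y) x := fun e hx =>
  Finset.analyticAt_fun_sum _ fun i hi => hg i hi e hx

lemma HolAt.prod {ι : Type*} {s : Finset ι} {g : ι → X → ℂ} {x : X}
    (hg : ∀ i ∈ s, HolAt n (g i) x) : HolAt n (fun y => ∏ i ∈ s, g i y) x := fun e hx =>
  Finset.analyticAt_fun_prod _ fun i hi => hg i hi e hx

/-- identity theorem on a small coordinate ball -/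
lemma exists_ball_identity (x : X) {W : Set X} (hW : W ∈ 𝓝 x) :
    ∃ V : Set X, IsOpen V ∧ x ∈ V ∧ V ⊆ W ∧ ∀ g : X → ℂ, (∀ y ∈ W, HolAt n g y) →
      (∃ y ∈ V, g =ᶠ[𝓝 y] fun _ => 0) → ∀ y ∈ V, g y = 0 := by
  have hx := at_chartAt' (n := n) x
  set e := chartAt (Cm n) x with he
  have h1 : e.symm ⁻¹' W ∈ 𝓝 (e x) := by
    refine (e.continuousAt_symm hx.mem_target) ?_
    rwa [hx.left_inv]
  obtain ⟨r, hr, hb⟩ := Metric.mem_nhds_iff.1 (Filter.inter_mem h1
    (e.open_target.mem_nhds hx.mem_target))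
  refine ⟨e.source ∩ e ⁻¹' ball (e x) r, e.isOpen_inter_preimage isOpen_ball,
    ⟨hx.2, mem_ball_self hr⟩, ?_, ?_⟩
  · rintro y ⟨hy, hy'⟩
    have := (hb hy').1
    rwa [mem_preimage, e.left_inv hy] at this
  · rintro g hg ⟨y, ⟨hys, hyb⟩, hy0⟩
    have h2 : AnalyticOnNhd ℂ (fun z => g (e.symm z)) (ball (e x) r) := by
      intro z hz
      have h3 : At e (e.symm z) := ⟨hx.1, e.map_target (hb hz).2⟩
      have h4 := hg (e.symm z) (hb hz).1 e h3
      rwa [e.right_inv (hb hz).2] at h4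
    have h3 : (fun z => g (e.symm z)) =ᶠ[𝓝 (e y)] 0 := by
      have h4 : Tendsto e.symm (𝓝 (e y)) (𝓝 y) := by
        have := (e.continuousAt_symm (e.map_source hys)).tendsto
        rwa [e.left_inv hys] at this
      exact h4.eventually hy0
    have h4 := h2.eqOn_zero_of_preconnected_of_eventuallyEq_zero
      (convex_ball _ _).isPreconnected hyb h3
    rintro w ⟨hws, hwb⟩
    have h5 := h4 hwb
    simpa [e.left_inv hws] using h5

end hol

/-- Homogeneous coordinates of an injective holomorphic immersion of `X` into a projective space. -/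
structure ProjData (n : ℕ) (X : Type) [TopologicalSpace X] [ChartedSpace (Cm n) X] where
  N : ℕ
  Z : X → Fin (N + 1) → ℂ
  ne : ∀ x, Z x ≠ 0
  loc : ∀ x, ∃ (W : Set X) (s : X → Fin (N + 1) → ℂ), W ∈ 𝓝 x ∧
    (∀ y ∈ W, ∀ i, HolAt n (fun y => s y i) y) ∧ ∀ y ∈ W, ∃ c : ℂ, c ≠ 0 ∧ s y = c • Z y
  inj : ∀ x y, (∃ c : ℂ, Z x = c • Z y) → x = y
  imm : ∀ e x, At e x → ∀ j, Z x j ≠ 0 → ∀ v : Cm n,
    (∀ i, fderiv ℂ (fun z => Z (e.symm z) i / Z (e.symm z) j) (e x) v = 0) → v = 0
  j0 : Fin (N + 1)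
  hj0 : ∃ x, Z x j0 ≠ 0

namespace ProjData

variable {n : ℕ} {X : Type} [TopologicalSpace X] [ChartedSpace (Cm n) X] (D : ProjData n X)

/-- the affine part of `X` -/
def Aff : Set X := {x | D.Z x D.j0 ≠ 0}

/-- affine coordinates -/
def xi (i : Fin (D.N + 1)) (x : X) : ℂ := D.Z x i / D.Z x D.j0

lemma aff_nonempty : D.Aff.Nonempty := D.hj0

lemma holAt_ratio {x : X} (i j : Fin (D.N + 1)) (hj : D.Z x j ≠ 0) :
    HolAt n (fun y => D.Z y i / D.Z y j) x := by
  obtain ⟨W, s, hW, hs, hsZ⟩ := D.loc x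
  have hx : x ∈ W := mem_of_mem_nhds hW
  obtain ⟨c, hc, hcx⟩ := hsZ x hx
  have h1 : s x j ≠ 0 := by
    rw [hcx]
    simp only [Pi.smul_apply, smul_eq_mul]
    exact mul_ne_zero hc hj
  refine ((hs x hx i).div (hs x hx j) h1).congr ?_
  filter_upwards [hW] with y hy
  obtain ⟨c, hc, hcy⟩ := hsZ y hy
  rw [hcy]
  simp only [Pi.smul_apply, smul_eq_mul]
  rw [mul_div_mul_left _ _ hc]

lemma xi_holAt {x : X} (hx : x ∈ D.Aff) (i : Fin (D.N + 1)) : HolAt n (D.xi i) x :=
  D.holAt_ratio i D.j0 hx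

lemma xi_j0 {x : X} (hx : x ∈ D.Aff) : D.xi D.j0 x = 1 := div_self hx

lemma isOpen_aff : IsOpen D.Aff := by
  rw [isOpen_iff_mem_nhds]
  intro x hx
  obtain ⟨W, s, hW, hs, hsZ⟩ := D.loc x
  have hxW : x ∈ W := mem_of_mem_nhds hW
  have h1 : ContinuousAt (fun y => s y D.j0) x := (hs x hxW D.j0).continuousAt
  have h2 : s x D.j0 ≠ 0 := by
    obtain ⟨c, hc, hcx⟩ := hsZ x hxW
    rw [hcx]
    exact mul_ne_zero hc hx
  filter_upwards [h1.eventually_ne h2, hW] with y hy hyW
  obtain ⟨c, hc, hcy⟩ := hsZ y hyW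
  intro h0
  apply hy
  rw [hcy]
  simp [h0]

/-- The ring of polynomials in the affine coordinates. -/
def R : Subalgebra ℂ (D.Aff → ℂ) :=
  Algebra.adjoin ℂ (Set.range fun (i : Fin (D.N + 1)) (x : D.Aff) => D.xi i x)

lemma mem_R_iff (f : D.Aff → ℂ) : f ∈ D.R ↔ ∃ P : MvPolynomial (Fin (D.N + 1)) ℂ,
    f = fun x : D.Aff => MvPolynomial.eval (fun i => D.xi i x) P := by
  unfold R
  rw [Algebra.adjoin_range_eq_range_aeval, AlgHom.mem_range]
  have h1 : ∀ P : MvPolynomial (Fin (D.N + 1)) ℂ,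
      MvPolynomial.aeval (fun (i : Fin (D.N + 1)) (x : D.Aff) => D.xi i x) P =
        fun x : D.Aff => MvPolynomial.eval (fun i => D.xi i x) P := by
    intro P
    funext x
    induction P using MvPolynomial.induction_on with
    | C a => simp [Pi.algebraMap_apply]
    | add p q hp hq => simp [hp, hq]
    | mul_X p i hp => simp [hp]
  constructor
  · rintro ⟨P, hP⟩
    exact ⟨P, by rw [← hP, h1]⟩
  · rintro ⟨P, hP⟩
    exact ⟨P, by rw [h1, hP]⟩

/-- coordinates as elements of `R` -/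
def xiR (i : Fin (D.N + 1)) : D.R :=
  ⟨fun x => D.xi i x, Algebra.subset_adjoin ⟨i, rfl⟩⟩

/-- the extension of an element of `R` by zero -/
def ext (f : D.R) (x : X) : ℂ := open Classical in if h : x ∈ D.Aff then f.1 ⟨x, h⟩ else 0

lemma ext_of_mem (f : D.R) {x : X} (h : x ∈ D.Aff) : D.ext f x = f.1 ⟨x, h⟩ := by
  simp [ext, h]

lemma exists_poly (f : D.R) : ∃ P : MvPolynomial (Fin (D.N + 1)) ℂ, ∀ x ∈ D.Aff,
    D.ext f x = MvPolynomial.eval (fun i => D.xi i x) P := by
  obtain ⟨P, hP⟩ := (D.mem_R_iff f.1).1 f.2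
  exact ⟨P, fun x hx => by rw [D.ext_of_mem f hx, hP]⟩

lemma ext_holAt (f : D.R) {x : X} (hx : x ∈ D.Aff) : HolAt n (D.ext f) x := by
  obtain ⟨P, hP⟩ := D.exists_poly f
  have h1 : HolAt n (fun y => MvPolynomial.eval (fun i => D.xi i y) P) x := by
    simp only [MvPolynomial.eval_eq]
    refine HolAt.sum fun d _ => (HolAt.const _ _).mul ?_
    exact HolAt.prod fun i _ => (D.xi_holAt hx i).pow _
  refine h1.congr ?_
  filter_upwards [D.isOpen_aff.mem_nhds hx] with y hy
  rw [hP y hy]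

/-- near every point of `X` an element of `R` is a quotient of holomorphic functions -/
lemma exists_local (f : D.R) (x : X) : ∃ (W : Set X) (g h : X → ℂ), W ∈ 𝓝 x ∧
    (∀ y ∈ W, HolAt n g y) ∧ (∀ y ∈ W, HolAt n h y) ∧ (∀ y ∈ W, (h y ≠ 0 ↔ y ∈ D.Aff)) ∧
    ∀ y ∈ W, y ∈ D.Aff → g y = D.ext f y * h y := by
  obtain ⟨P, hP⟩ := D.exists_poly f
  obtain ⟨W, s, hW, hs, hsZ⟩ := D.loc x
  let d := P.totalDegree + 1
  let g : X → ℂ := fun y => ∑ α ∈ P.support, P.coeff α * ((∏ i ∈ α.support, s y i ^ α i) *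
    s y D.j0 ^ (d - α.sum fun _ k => k))
  refine ⟨W, g, fun y => s y D.j0 ^ d, hW, ?_, ?_, ?_, ?_⟩
  · intro y hy
    refine HolAt.sum fun α _ => (HolAt.const _ _).mul (HolAt.mul ?_ ((hs y hy _).pow _))
    exact HolAt.prod fun i _ => (hs y hy i).pow _
  · intro y hy
    exact (hs y hy _).pow _
  · intro y hy
    obtain ⟨c, hc, hcy⟩ := hsZ y hy
    simp only [hcy, Pi.smul_apply, smul_eq_mul, ProjData.Aff, mem_setOf_eq, ne_eq]
    rw [pow_eq_zero_iff (by omega : d ≠ 0), mul_eq_zero, or_iff_right hc]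
  · intro y hy hya
    rw [hP y hya, MvPolynomial.eval_eq, Finset.sum_mul]
    refine Finset.sum_congr rfl fun α hα => ?_
    rw [mul_assoc]
    congr 1
    have h1 : s y D.j0 ≠ 0 := by
      obtain ⟨c, hc, hcy⟩ := hsZ y hy
      rw [hcy]
      exact mul_ne_zero hc hya
    have h2 : ∀ i, s y i = D.xi i y * s y D.j0 := by
      intro i
      obtain ⟨c, hc, hcy⟩ := hsZ y hy
      rw [hcy]
      simp only [Pi.smul_apply, smul_eq_mul, xi]
      have : D.Z y D.j0 ≠ 0 := hya
      field_simp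
    have h3 : (α.sum fun _ k => k) ≤ d := (MvPolynomial.le_totalDegree hα).trans (by omega)
    have h4 : ∏ i ∈ α.support, s y i ^ α i =
        (∏ i ∈ α.support, D.xi i y ^ α i) * s y D.j0 ^ (α.sum fun _ k => k) := by
      rw [Finsupp.sum, ← Finset.prod_pow_eq_pow_sum, ← Finset.prod_mul_distrib]
      refine Finset.prod_congr rfl fun i _ => ?_
      rw [h2 i, mul_pow]
    rw [h4, mul_assoc, ← pow_add, Nat.add_sub_cancel' h3]

variable [PreconnectedSpace X]

/-- identity theorem for elements of `R` -/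
lemma eq_zero_of_eventually (f : D.R) {x : X} (hx : x ∈ D.Aff)
    (h : D.ext f =ᶠ[𝓝 x] fun _ => 0) : f = 0 := by
  let U : Set X := {y | ∀ᶠ z in 𝓝 y, z ∈ D.Aff → D.ext f z = 0}
  have hU : IsOpen U := by
    rw [isOpen_iff_mem_nhds]
    intro y hy
    exact hy.eventually_nhds
  have hUc : IsClosed U := by
    rw [← closure_subset_iff_isClosed]
    intro y hy
    obtain ⟨W, g, k, hW, hg, hk, hk0, hgk⟩ := D.exists_local f y
    obtain ⟨V, hVo, hyV, hVW, hid⟩ := exists_ball_identity (n := n) y hW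
    obtain ⟨w, hwV, hwU⟩ := mem_closure_iff.1 hy V hVo hyV
    have h1 : ∀ y' ∈ V, g y' * k y' = 0 := by
      refine hid (fun y => g y * k y) (fun y' hy' => (hg y' hy').mul (hk y' hy')) ⟨w, hwV, ?_⟩
      filter_upwards [hwU, hVo.mem_nhds hwV] with z hz hzV
      by_cases hza : z ∈ D.Aff
      · rw [hgk z (hVW hzV) hza, hz hza]
        ring
      · have : k z = 0 := by
          by_contra h0
          exact hza ((hk0 z (hVW hzV)).1 h0)
        rw [this, mul_zero]
    show ∀ᶠ z in 𝓝 y, z ∈ D.Aff → D.ext f z = 0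
    filter_upwards [hVo.mem_nhds hyV] with z hzV hza
    have h2 := h1 z hzV
    rw [hgk z (hVW hzV) hza] at h2
    have h3 := (hk0 z (hVW hzV)).2 hza
    have h4 : D.ext f z * k z * k z = D.ext f z * (k z * k z) := by ring
    rw [h4] at h2
    exact (mul_eq_zero.1 h2).resolve_right (mul_ne_zero h3 h3)
  have hUn : U.Nonempty := ⟨x, by
    show ∀ᶠ z in 𝓝 x, z ∈ D.Aff → D.ext f z = 0
    filter_upwards [h] with z hz _
    exact hz⟩
  have hUu : U = univ := IsClopen.eq_univ ⟨hUc, hU⟩ hUn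
  apply Subtype.ext
  funext y
  have hy : (y : X) ∈ U := by rw [hUu]; trivial
  have h1 := (mem_of_mem_nhds (show {z | z ∈ D.Aff → D.ext f z = 0} ∈ 𝓝 (y : X) from hy)) y.2
  rw [D.ext_of_mem f y.2] at h1
  exact h1

lemma exists_ne_of_ne {f : D.R} (hf : f ≠ 0) {x : X} (hx : x ∈ D.Aff) {V : Set X} (hV : V ∈ 𝓝 x) :
    ∃ y ∈ V, y ∈ D.Aff ∧ D.ext f y ≠ 0 := by
  by_contra h
  push Not at h
  apply hf
  refine D.eq_zero_of_eventually f hx ?_
  filter_upwards [hV, D.isOpen_aff.mem_nhds hx] with y hy hya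
  exact h y hy hya

lemma ext_mul (f g : D.R) (x : X) : D.ext (f * g) x = D.ext f x * D.ext g x := by
  by_cases hx : x ∈ D.Aff
  · simp [D.ext_of_mem _ hx]
  · simp [ext, hx]

instance : IsDomain D.R := by
  haveI : Nontrivial D.R := by
    refine ⟨⟨0, 1, fun h => ?_⟩⟩
    obtain ⟨x, hx⟩ := D.aff_nonempty
    have := congrArg (fun f : D.R => f.1 ⟨x, hx⟩) h
    simp at this
  haveI : NoZeroDivisors D.R := by
    refine ⟨fun {f g} h => ?_⟩
    by_contra hfg
    push Not at hfg
    obtain ⟨hf, hg⟩ := hfg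
    obtain ⟨x, hx⟩ := D.aff_nonempty
    obtain ⟨y, -, hya, hy⟩ := D.exists_ne_of_ne hf hx univ_mem
    have h1 : {z | D.ext f z ≠ 0} ∈ 𝓝 y := (D.ext_holAt f hya).continuousAt.eventually_ne hy
    obtain ⟨z, hz, hza, hz'⟩ := D.exists_ne_of_ne hg hya h1
    have h2 := D.ext_mul f g z
    rw [h] at h2
    rw [D.ext_of_mem _ hza] at h2
    have h3 : (0 : ℂ) = D.ext f z * D.ext g z := h2
    exact mul_ne_zero hz hz' h3.symm
  exact NoZeroDivisors.to_isDomain _

/-- The field of rational functions of `X`. -/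
def K : Type := FractionRing D.R

instance : Field D.K := inferInstanceAs (Field (FractionRing D.R))

instance : Algebra ℂ D.K := inferInstanceAs (Algebra ℂ (FractionRing D.R))

instance : Algebra D.R D.K := inferInstanceAs (Algebra D.R (FractionRing D.R))

instance : IsScalarTower ℂ D.R D.K := inferInstanceAs (IsScalarTower ℂ D.R (FractionRing D.R))

instance : IsFractionRing D.R D.K := inferInstanceAs (IsFractionRing D.R (FractionRing D.R))

instance : FaithfulSMul D.R D.K :=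
  (faithfulSMul_iff_algebraMap_injective D.R D.K).2 (IsFractionRing.injective D.R D.K)

end ProjData

end Vale.Agent.P299.H908
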