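import Vale.Agent.P299.H908.Gen

/-!
# P299 / H908: existence of `Den`, thinness of the complement of `X0`
-/

set_option linter.all false

open Metric Filter Topology Set
open Vale.Agent.P272.K
open Vale.Agent.P282.L2 (Pol pev Prim Sheets)
open Vale.Agent.P299.H212 (Thin FM genF)
open scoped Manifold ContDiff Cardinal

noncomputable section

namespace Vale.Agent.P299.H908

section prim

variable {n : ℕ} {K : Type} [Field K] [Algebra ℂ K] [Algebra (Pol n) K]

/-- after enlarging `h` suitably, every element of `K` is regular -/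
lemma exists_isReg_mul (E : Prim n K) (a : K) : ∃ c : Pol n, c ≠ 0 ∧
    ∀ E' : Prim n K, E'.y = E.y → c ∣ E'.h → E'.IsReg a := by
  obtain ⟨f, c, hc, hf⟩ := E.gen a
  refine ⟨c, hc, fun E' hy ⟨d, hd⟩ => ⟨Polynomial.C d * f, 1, ?_⟩⟩
  rw [pow_one, hd, hy, map_mul, map_mul, Polynomial.aeval_C, ← hf]
  ring

lemma exists_isReg_mul_finite (E : Prim n K) {ι : Type*} [Finite ι] (a : ι → K) :
    ∃ c : Pol n, c ≠ 0 ∧ ∀ E' : Prim n K, E'.y = E.y → c ∣ E'.h → ∀ i, E'.IsReg (a i) := by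
  haveI := Fintype.ofFinite ι
  choose c hc hc' using fun i => exists_isReg_mul E (a i)
  refine ⟨∏ i, c i, Finset.prod_ne_zero_iff.2 fun i _ => hc i, fun E' hy hd i => ?_⟩
  exact hc' i E' hy ((Finset.dvd_prod_of_mem _ (Finset.mem_univ i)).trans hd)

/-- enlarging `h` -/
def enl (E : Prim n K) (g : Pol n) (hg : g ≠ 0) : Prim n K where
  y := E.y
  h := E.h * g
  integral := E.integral
  h0 := mul_ne_zero E.h0 hg
  gen := E.gen
  denom := by
    intro b hb
    obtain ⟨f, hf⟩ := E.denom b hb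
    refine ⟨Polynomial.C g * f, ?_⟩
    rw [map_mul, map_mul, Polynomial.aeval_C, ← hf]
    ring
  unram := by
    obtain ⟨f, hf⟩ := E.unram
    refine ⟨Polynomial.C g * f, ?_⟩
    rw [map_mul, map_mul, Polynomial.aeval_C, ← hf]
    ring

end prim

namespace ProjData

variable {n : ℕ} {X : Type} [TopologicalSpace X] [ChartedSpace (Cm n) X] (D : ProjData n X)
  [PreconnectedSpace X]

/-- common denominators -/
lemma exists_den_finite {ι : Type*} [Finite ι] (a : ι → D.K) : ∃ b : D.R, b ≠ 0 ∧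
    ∀ i, ∃ c : D.R, a i * algebraMap D.R D.K b = algebraMap D.R D.K c := by
  obtain ⟨b, hb⟩ := IsLocalization.exist_integer_multiples_of_finite (nonZeroDivisors D.R) a
  refine ⟨b, nonZeroDivisors.ne_zero b.2, fun i => ?_⟩
  obtain ⟨c, hc⟩ := hb i
  refine ⟨c, ?_⟩
  rw [hc, Algebra.smul_def, mul_comm]

variable [Algebra (Pol n) D.K] [IsScalarTower ℂ (Pol n) D.K] [FaithfulSMul (Pol n) D.K]

/-- existence of the data `Den`, with further elements of `R` made invertible on `X0` -/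
theorem exists_den (E : Prim n D.K) (r : D.R) (hr : r ≠ 0) : ∃ c : Pol n, c ≠ 0 ∧
    ∀ E' : Prim n D.K, E'.y = E.y → c ∣ E'.h → ∃ B : D.Den E', r ∣ B.b := by
  obtain ⟨b, hb, h⟩ := D.exists_den_finite (fun i : Option (Fin n) => i.elim E.y D.zK)
  have hrb : algebraMap D.R D.K (r * b) ≠ 0 := by
    rw [ne_eq, FaithfulSMul.algebraMap_eq_zero_iff]
    exact mul_ne_zero hr hb
  obtain ⟨c, hc, hc'⟩ := exists_isReg_mul_finite E
    (fun i : Option (Fin (D.N + 1)) => i.elim (algebraMap D.R D.K (r * b))⁻¹ D.xiK)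
  refine ⟨c, hc, fun E' hy hd => ?_⟩
  have h1 : ∀ i, ∃ c : D.R, D.zK i * algebraMap D.R D.K (r * b) = algebraMap D.R D.K c := by
    intro i
    obtain ⟨c, hc⟩ := h (some i)
    refine ⟨r * c, ?_⟩
    rw [map_mul, map_mul, ← hc]
    simp only [Option.elim_some]
    ring
  choose zb hzb using h1
  obtain ⟨yb, hyb⟩ : ∃ c : D.R, E'.y * algebraMap D.R D.K (r * b) = algebraMap D.R D.K c := by
    obtain ⟨c, hc⟩ := h none
    refine ⟨r * c, ?_⟩
    rw [map_mul, map_mul, ← hc, hy]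
    simp only [Option.elim_none]
    ring
  exact ⟨⟨r * b, mul_ne_zero hr hb, zb, hzb, yb, hyb, hc' E' hy hd none,
    fun i => hc' E' hy hd (some i)⟩, dvd_mul_right r b⟩

namespace Den

variable {D} {E : Prim n D.K} (B : D.Den E) [IsManifold 𝓘(ℂ, Cm n) ω X]

/-- a generic point is in `X0` -/
theorem genF_X0 : ∀ᶠ x in genF n X, x ∈ B.X0 := by
  filter_upwards [D.genF_val_ne (a := algebraMap (Pol n) D.K E.h) (Prim.ev_aux_h E),
    H212.genF_ev D.fm B.b0] with x hx hb
  have hxa := hx.1.aff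
  rw [D.fm_ev _ hxa] at hb
  refine ⟨hxa, hb.2, ?_⟩
  rw [← (B.reg_pol hxa hb.2 E.h).2]
  exact hx.2

theorem thin_compl : Thin (n := n) (B.X0)ᶜ := B.genF_X0

end Den

end ProjData

end Vale.Agent.P299.H908
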