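import Vale.Agent.P299.H908.DenEx
import Mathlib.Algebra.MvPolynomial.Funext

/-!
# P299 / H908: the transcendence degree of the field of rational functions is `n`
-/

set_option linter.all false

open Metric Filter Topology Set
open Vale.Agent.P272.K
open scoped Manifold ContDiff Cardinal

noncomputable section

namespace Vale.Agent.P299.H908

/-- a polynomial vanishing on a nonempty open set is zero -/
lemma mv_eq_zero_of_open {n : ℕ} {P : MvPolynomial (Fin n) ℂ} {z0 : Fin n → ℂ}
    (h : ∀ᶠ z in 𝓝 z0, MvPolynomial.eval z P = 0) : P = 0 := by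
  obtain ⟨r, hr, hb⟩ := Metric.eventually_nhds_iff_ball.1 h
  refine MvPolynomial.funext_set (fun i => ball (z0 i) r) (fun i => ?_) fun x hx => ?_
  · exact infinite_of_mem_nhds (z0 i) (ball_mem_nhds _ hr)
  · rw [hb x, map_zero]
    rw [mem_ball, dist_pi_lt_iff hr]
    intro i
    exact hx i (mem_univ i)

/-- A family of linear forms without common kernel contains coordinates. -/
lemma exists_coord {n m : ℕ} (l : Fin m → (Cm n →ₗ[ℂ] ℂ)) (h : ∀ v, (∀ i, l i v = 0) → v = 0) :
    ∃ I : Fin n → Fin m, ∀ v, (∀ j, l (I j) v = 0) → v = 0 := by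
  obtain ⟨κ, a, ha, hspan, hli⟩ := exists_linearIndependent' ℂ l
  haveI : Finite κ := Finite.of_injective a ha
  haveI : Fintype κ := Fintype.ofFinite κ
  have h1 : ∀ v, (∀ k, l (a k) v = 0) → v = 0 := by
    intro v hv
    apply h
    intro i
    have h2 : l i ∈ Submodule.span ℂ (range (l ∘ a)) := by
      rw [hspan]
      exact Submodule.subset_span ⟨i, rfl⟩
    refine Submodule.span_induction (p := fun f _ => f v = 0) ?_ ?_ ?_ ?_ h2
    · rintro _ ⟨k, rfl⟩
      exact hv k
    · rfl
    · intro f g _ _ hf hg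
      rw [LinearMap.add_apply, hf, hg, add_zero]
    · intro c f _ hf
      rw [LinearMap.smul_apply, hf, smul_zero]
  have hd : Module.finrank ℂ (Cm n) = n := by simp [Cm]
  have h2 : Fintype.card κ ≤ n := by
    have := hli.fintype_card_le_finrank
    rwa [Subspace.dual_finrank_eq, hd] at this
  have h3 : n ≤ Fintype.card κ := by
    have h4 : Function.Injective (LinearMap.pi fun k => l (a k)) := by
      rw [injective_iff_map_eq_zero]
      intro v hv
      exact h1 v fun k => congrFun hv k
    have := LinearMap.finrank_le_finrank_of_injective h4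
    rwa [hd, Module.finrank_fintype_fun_eq_card] at this
  let e : Fin n ≃ κ := (Fintype.equivFinOfCardEq (le_antisymm h2 h3)).symm
  refine ⟨fun j => a (e j), fun v hv => h1 v fun k => ?_⟩
  have := hv (e.symm k)
  simpa using this

namespace ProjData

variable {n : ℕ} {X : Type} [TopologicalSpace X] [ChartedSpace (Cm n) X] (D : ProjData n X)
  [PreconnectedSpace X]

/-- coordinates among the affine coordinates near a point -/
lemma exists_local_coord {x : X} (hx : x ∈ D.Aff) : ∃ I : Fin n → Fin (D.N + 1),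
    map (fun y => fun j => D.xi (I j) y) (𝓝 x) = 𝓝 (fun j => D.xi (I j) x) := by
  have he := at_chartAt' (n := n) x
  set e := chartAt (Cm n) x with hedef
  have han : ∀ i, AnalyticAt ℂ (fun z => D.xi i (e.symm z)) (e x) := fun i =>
    D.xi_holAt hx i e he
  obtain ⟨I, hI⟩ := exists_coord
    (fun i => (fderiv ℂ (fun z => D.xi i (e.symm z)) (e x) : Cm n →L[ℂ] ℂ).toLinearMap)
    (fun v hv => D.imm e x he D.j0 hx v fun i => hv i)
  refine ⟨I, ?_⟩
  have h1 : AnalyticAt ℂ (fun z => fun j => D.xi (I j) (e.symm z)) (e x) := by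
    rw [analyticAt_pi_iff]
    exact fun j => han (I j)
  have h2 := h1.hasStrictFDerivAt
  have h3 : LinearMap.ker ((fderiv ℂ (fun z => fun j => D.xi (I j) (e.symm z)) (e x) :
      Cm n →L[ℂ] (Fin n → ℂ)) : Cm n →ₗ[ℂ] (Fin n → ℂ)) = ⊥ := by
    rw [LinearMap.ker_eq_bot']
    intro v hv
    apply hI
    intro j
    have h4 : fderiv ℂ (fun z => fun j => D.xi (I j) (e.symm z)) (e x) =
        ContinuousLinearMap.pi fun j => fderiv ℂ (fun z => D.xi (I j) (e.symm z)) (e x) :=
      fderiv_pi fun j => (han (I j)).differentiableAt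
    have h5 := congrFun hv j
    rw [h4] at h5
    exact h5
  have h4 : LinearMap.range ((fderiv ℂ (fun z => fun j => D.xi (I j) (e.symm z)) (e x) :
      Cm n →L[ℂ] (Fin n → ℂ)) : Cm n →ₗ[ℂ] (Fin n → ℂ)) = ⊤ :=
    LinearMap.range_eq_top.2 (LinearMap.injective_iff_surjective.1 (LinearMap.ker_eq_bot.1 h3))
  have h5 := h2.map_nhds_eq_of_surj h4
  rw [he.left_inv] at h5
  rw [← h5]
  have h6 : map e.symm (𝓝 (e x)) = 𝓝 x := by
    have := e.symm.map_nhds_eq (x := e x) he.mem_target
    rwa [he.left_inv] at this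
  rw [← h6, Filter.map_map]
  rfl

/-- `n` algebraically independent affine coordinates -/
theorem exists_algebraicIndependent : ∃ I : Fin n → Fin (D.N + 1),
    AlgebraicIndependent ℂ fun j => D.xiK (I j) := by
  obtain ⟨x, hx⟩ := D.aff_nonempty
  obtain ⟨I, hI⟩ := D.exists_local_coord hx
  refine ⟨I, ?_⟩
  rw [algebraicIndependent_iff]
  intro P hP
  have h1 : MvPolynomial.aeval (fun j => D.xiR (I j)) P = 0 := by
    apply IsFractionRing.injective D.R D.K
    rw [map_zero, ← MvPolynomial.aeval_algebraMap_apply]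
    exact hP
  have h2 : ∀ y ∈ D.Aff, MvPolynomial.eval (fun j => D.xi (I j) y) P = 0 := by
    intro y hy
    rw [← D.ext_aeval_xiR I P hy, h1, D.ext_zero]
  refine mv_eq_zero_of_open (z0 := fun j => D.xi (I j) x) ?_
  rw [← hI, eventually_map]
  filter_upwards [D.isOpen_aff.mem_nhds hx] with y hy using h2 y hy

/-- the transcendence degree of the field of rational functions -/
theorem trdeg_eq [CompactSpace X] : Algebra.trdeg ℂ D.K = n := by
  refine le_antisymm D.trdeg_le ?_
  obtain ⟨I, hI⟩ := D.exists_algebraicIndependent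
  simpa using hI.lift_cardinalMk_le_trdeg

/-- every algebraically independent family extends to a transcendence basis `z₁, …, z_n` -/
theorem exists_extend [CompactSpace X] {k : ℕ} {z' : Fin k → D.K}
    (hz : AlgebraicIndependent ℂ z') : ∃ (z : Fin n → D.K) (ι : Fin k ↪ Fin n),
    AlgebraicIndependent ℂ z ∧ IsTranscendenceBasis ℂ z ∧ ∀ i, z (ι i) = z' i := by
  have h1 : AlgebraicIndepOn ℂ id (range z') := hz.to_subtype_range
  obtain ⟨t, hst, ht⟩ := exists_isTranscendenceBasis_superset h1
  have h2 : #t = n := by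
    rw [ht.cardinalMk_eq_trdeg, D.trdeg_eq]
  obtain ⟨e⟩ : Nonempty (t ≃ Fin n) := by
    rw [← Cardinal.eq, h2, Cardinal.mk_fin]
  refine ⟨fun j => (e.symm j : D.K), ⟨fun i => e ⟨z' i, hst ⟨i, rfl⟩⟩, ?_⟩, ?_, ?_, ?_⟩
  · intro i j hij
    have h3 := e.injective hij
    exact hz.injective (congrArg Subtype.val h3)
  · exact ht.1.comp _ e.symm.injective
  · exact ht.comp_equiv e.symm
  · intro i
    show ((e.symm (e ⟨z' i, _⟩) : t) : D.K) = z' i
    rw [Equiv.symm_apply_apply]

end ProjData

/-- the algebra structures given by algebraically independent elements -/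
theorem exists_pol_algebra {K : Type} [Field K] [Algebra ℂ K] {m : ℕ} {z : Fin m → K}
    (hz : AlgebraicIndependent ℂ z) :
    ∃ (_ : Algebra (MvPolynomial (Fin m) ℂ) K)
      (_ : Algebra (FractionRing (MvPolynomial (Fin m) ℂ)) K),
      IsScalarTower ℂ (MvPolynomial (Fin m) ℂ) K ∧ FaithfulSMul (MvPolynomial (Fin m) ℂ) K ∧
      IsScalarTower (MvPolynomial (Fin m) ℂ) (FractionRing (MvPolynomial (Fin m) ℂ)) K ∧
      ∀ i, algebraMap (MvPolynomial (Fin m) ℂ) K (MvPolynomial.X i) = z i := by
  letI i1 : Algebra (MvPolynomial (Fin m) ℂ) K := (MvPolynomial.aeval z).toAlgebra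
  have h1 : ∀ f, algebraMap (MvPolynomial (Fin m) ℂ) K f = MvPolynomial.aeval z f := fun f => rfl
  haveI i2 : IsScalarTower ℂ (MvPolynomial (Fin m) ℂ) K := by
    refine IsScalarTower.of_algebraMap_eq fun c => ?_
    rw [h1, MvPolynomial.algebraMap_eq, MvPolynomial.aeval_C]
  haveI i3 : FaithfulSMul (MvPolynomial (Fin m) ℂ) K :=
    (faithfulSMul_iff_algebraMap_injective _ _).2 hz
  refine ⟨i1, FractionRing.liftAlgebra _ K, i2, i3, FractionRing.isScalarTower_liftAlgebra _ _, ?_⟩
  intro i
  rw [h1, MvPolynomial.aeval_X]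

/-- the algebra structures on the field of rational functions given by a transcendence basis -/
theorem ProjData.exists_instances {n : ℕ} {X : Type} [TopologicalSpace X] [ChartedSpace (Cm n) X]
    (D : ProjData n X) [PreconnectedSpace X] [CompactSpace X] {z : Fin n → D.K}
    (hz : AlgebraicIndependent ℂ z) :
    ∃ (_ : Algebra (MvPolynomial (Fin n) ℂ) D.K)
      (_ : Algebra (FractionRing (MvPolynomial (Fin n) ℂ)) D.K),
      IsScalarTower ℂ (MvPolynomial (Fin n) ℂ) D.K ∧ FaithfulSMul (MvPolynomial (Fin n) ℂ) D.K ∧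
      IsScalarTower (MvPolynomial (Fin n) ℂ) (FractionRing (MvPolynomial (Fin n) ℂ)) D.K ∧
      FiniteDimensional (FractionRing (MvPolynomial (Fin n) ℂ)) D.K ∧
      ∀ i, algebraMap (MvPolynomial (Fin n) ℂ) D.K (MvPolynomial.X i) = z i := by
  obtain ⟨i1, i2, i3, i4, i5, h⟩ := exists_pol_algebra hz
  exact ⟨i1, i2, i3, i4, i5, D.finiteDimensional, h⟩

end Vale.Agent.P299.H908
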