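import Vale.Agent.P299.H908.DenEx
import Vale.Agent.P299.H340.Model.Alg
import Vale.Agent.P299.H216.Brg

/-!
# P299 / H908: the bridge between the open part of `X` and the labelled cover
-/

set_option linter.all false

open Metric Filter Topology Set
open Vale.Agent.P272.K
open Vale.Agent.P282.L2 (Pol pev Prim)
open Vale.Agent.P299.H212 (Thin FM genF)
open Vale.Agent.P299.H340 (Mod Link)
open Vale.Agent.P299.H216 (Brg)
open scoped Manifold ContDiff Cardinal

noncomputable section

namespace Vale.Agent.P299.H908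

namespace ProjData

variable {n : ℕ} {X : Type} [TopologicalSpace X] [ChartedSpace (Cm n) X] {D : ProjData n X}
  [PreconnectedSpace X]
  [Algebra (Pol n) D.K] [IsScalarTower ℂ (Pol n) D.K] [FaithfulSMul (Pol n) D.K]

namespace Den

variable {A : Mod n D.K} (B : D.Den A.E)

/-- the labelled version of `θ` -/
def th (A : Mod n D.K) (x : X) : (Fin n → ℂ) × ℕ := A.link.qt (θ A.E x)

lemma th_mem {x : X} (hx : x ∈ B.X0) : th A x ∈ A.S.M := A.link.qt_mem _ (B.θ_mem A.sh hx)

lemma pt_th {x : X} (hx : x ∈ B.X0) : A.link.pt (th A x) = θ A.E x :=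
  A.link.pt_qt _ (B.θ_mem A.sh hx)

lemma th_fst {x : X} (hx : x ∈ B.X0) : (th A x).1 = zv (D := D) x :=
  A.link.qt_fst _ (B.θ_mem A.sh hx)

/-- values of regular elements -/
lemma reg_th {x : X} (hx : x ∈ B.X0) {a : D.K} (ha : A.IsReg a) :
    D.RegAt a x ∧ D.val a x = A.val a (th A x) := by
  have h1 := B.reg A.sh hx ha
  refine ⟨h1.1, ?_⟩
  rw [h1.2]
  show _ = A.E.ev a (A.link.pt (th A x))
  rw [B.pt_th hx]

lemma val_th {x : X} (hx : x ∈ B.X0) {a : D.K} (ha : A.IsReg a) :
    A.val a (th A x) = D.val a x := (B.reg_th hx ha).2.symm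

lemma th_inj : InjOn (th A) B.X0 := fun x hx y hy h => B.θ_inj A.sh hx hy (by
  rw [← B.pt_th hx, ← B.pt_th hy, h])

lemma eventually_symm {P : X → Prop} {e : Chart n X} {x : X} (he : At e x) (h : ∀ᶠ y in 𝓝 x, P y) :
    ∀ᶠ z in 𝓝 (e x), P (e.symm z) := by
  have ht : Tendsto e.symm (𝓝 (e x)) (𝓝 x) := by
    have := (e.continuousAt_symm he.mem_target).tendsto
    rwa [he.left_inv] at this
  exact ht.eventually h

lemma th_fst_eventually {x : X} (hx : x ∈ B.X0) {e : Chart n X} (he : At e x) :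
    (fun z => (th A (e.symm z)).1) =ᶠ[𝓝 (e x)] fun z => zv (D := D) (e.symm z) := by
  filter_upwards [eventually_symm he (B.isOpen_X0.mem_nhds hx)] with z hz
  exact B.th_fst hz

variable [Algebra (FractionRing (Pol n)) D.K]
  [IsScalarTower (Pol n) (FractionRing (Pol n)) D.K]
  [FiniteDimensional (FractionRing (Pol n)) D.K]

lemma th_surj [CompactSpace X] {q : (Fin n → ℂ) × ℕ} (hq : q ∈ A.S.M) :
    ∃ x ∈ B.X0, th A x = q := by
  have h1 := B.θ_surj A.sh (fun F hF ⟨C, hC⟩ => by
    obtain ⟨a, ha, haF⟩ := A.exists_val_of_bounded (A.link.holo_pt hF) (c := C)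
      (fun q hq => hC _ (A.link.pt_mem q hq))
    refine ⟨a, ha, fun q hq => ?_⟩
    have h2 := haF _ (A.link.qt_mem q hq)
    have h3 : A.val a (A.link.qt q) = A.E.ev a (A.link.pt (A.link.qt q)) := rfl
    rw [h3, A.link.pt_qt q hq] at h2
    exact h2)
  have h2 : A.link.pt q ∈ θ A.E '' B.X0 := by
    rw [h1]
    exact A.link.pt_mem q hq
  obtain ⟨x, hx, hxq⟩ := h2
  exact ⟨x, hx, by unfold th; rw [hxq, A.link.qt_pt q hq]⟩

/-- **The bridge** -/
def brg [CompactSpace X] : Brg A.S X where
  Xo := B.X0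
  isOpen := B.isOpen_X0
  θ := th A
  maps := fun x hx => B.th_mem hx
  inj := B.th_inj
  surj := fun q hq => B.th_surj hq
  hol := by
    intro e x he hx
    refine AnalyticAt.congr ?_ (B.th_fst_eventually hx he).symm
    rw [analyticAt_pi_iff]
    exact fun i => B.zv_holAt hx i e he
  det := by
    intro e x he hx
    rw [(B.th_fst_eventually hx he).fderiv_eq]
    rw [injective_iff_map_eq_zero]
    intro v hv
    exact B.z_immersion A.sh hx he v hv
  loc := by
    intro x hx
    obtain ⟨s, W, hs, hW, hsx⟩ := P300.L2.Sheets.exists_section (B.th_mem hx)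
    rw [B.th_fst hx] at hW hsx
    refine ⟨W, s, hs, by rw [B.th_fst hx]; exact hW, ?_⟩
    have hs' := A.link.sec_pt W s hs
    have h1 : (fun z => (A.link.pt (z, s z)).2) (zv (D := D) x) = D.val A.E.y x := by
      show (A.link.pt (zv (D := D) x, s (zv (D := D) x))).2 = _
      have h2 : (zv (D := D) x, s (zv (D := D) x)) = th A x :=
        Prod.ext (B.th_fst hx).symm hsx
      rw [h2, B.pt_th hx]
      rfl
    filter_upwards [B.θ_section A.sh hx hs' hW h1] with y hy
    have h3 : th A y = (zv (D := D) y, s (zv (D := D) y)) := by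
      unfold th
      rw [hy.2.2]
      have h4 : (zv (D := D) y, s (zv (D := D) y)) ∈ A.S.M := hs.mem_M hy.2.1
      have h5 := A.link.qt_pt _ h4
      have h6 := A.link.pt_fst _ h4
      rw [← h5]
      congr 1
      · exact Prod.ext h6.symm (by rw [h5])
    rw [h3]

@[simp] lemma brg_Xo [CompactSpace X] : B.brg.Xo = B.X0 := rfl

@[simp] lemma brg_θ [CompactSpace X] : B.brg.θ = th A := rfl

end Den

end ProjData

end Vale.Agent.P299.H908
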