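import Vale.Agent.P299.H908.SiegelP
import Mathlib.RingTheory.AlgebraicIndependent.TranscendenceBasis
import Mathlib.FieldTheory.IntermediateField.Adjoin.Basic
import Mathlib.RingTheory.Localization.Integral

/-!
# P299 / H908: the field of rational functions is finite over `ℂ(z₁, …, z_n)`
-/

set_option linter.all false

open Metric Filter Topology Set
open Vale.Agent.P272.K
open scoped Manifold ContDiff Cardinal

noncomputable section

namespace Vale.Agent.P299.H908

namespace ProjData

variable {n : ℕ} {X : Type} [TopologicalSpace X] [ChartedSpace (Cm n) X] (D : ProjData n X)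
  [PreconnectedSpace X]

/-- the affine coordinates in `K` -/
def xiK (i : Fin (D.N + 1)) : D.K := algebraMap D.R D.K (D.xiR i)

lemma ext_aeval_xiR {m : ℕ} (a : Fin m → Fin (D.N + 1)) (p : MvPolynomial (Fin m) ℂ) {x : X}
    (hx : x ∈ D.Aff) : D.ext (MvPolynomial.aeval (fun i => D.xiR (a i)) p) x =
      MvPolynomial.eval (fun i => D.xi (a i) x) p := by
  rw [D.ext_of_mem _ hx]
  induction p using MvPolynomial.induction_on with
  | C c => simp [Pi.algebraMap_apply]
  | add p q hp hq =>
    rw [map_add, map_add, ← hp, ← hq]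
    rfl
  | mul_X p i hp =>
    rw [map_mul, map_mul, ← hp, MvPolynomial.aeval_X, MvPolynomial.eval_X]
    rfl

lemma R_ext {f g : D.R} (h : ∀ x ∈ D.Aff, D.ext f x = D.ext g x) : f = g := by
  apply Subtype.ext
  funext x
  have := h x x.2
  rwa [D.ext_of_mem _ x.2, D.ext_of_mem _ x.2] at this

lemma adjoin_xiR : Algebra.adjoin ℂ (range D.xiR) = ⊤ := by
  rw [eq_top_iff]
  rintro f -
  obtain ⟨P, hP⟩ := D.exists_poly f
  have h1 : f = MvPolynomial.aeval D.xiR P := by
    apply D.R_ext
    intro x hx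
    have := D.ext_aeval_xiR (m := D.N + 1) id P hx
    simp only [id] at this
    rw [this, hP x hx]
  rw [h1, Algebra.adjoin_range_eq_range_aeval]
  exact ⟨P, rfl⟩

lemma algebraMap_mem_adjoin (f : D.R) :
    algebraMap D.R D.K f ∈ Algebra.adjoin ℂ (range D.xiK) := by
  have h1 : f ∈ Algebra.adjoin ℂ (range D.xiR) := by
    rw [D.adjoin_xiR]
    trivial
  have h2 : (IsScalarTower.toAlgHom ℂ D.R D.K) f ∈
      (Algebra.adjoin ℂ (range D.xiR)).map (IsScalarTower.toAlgHom ℂ D.R D.K) :=
    Subalgebra.mem_map.2 ⟨f, h1, rfl⟩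
  rw [AlgHom.map_adjoin, ← range_comp] at h2
  exact h2

lemma isAlgebraic_adjoin : Algebra.IsAlgebraic (Algebra.adjoin ℂ (range D.xiK)) D.K := by
  constructor
  intro a
  obtain ⟨f, g, hg, rfl⟩ := IsFractionRing.div_surjective (A := D.R) a
  have hg0 : algebraMap D.R D.K g ≠ 0 := by
    rw [ne_eq, FaithfulSMul.algebraMap_eq_zero_iff]
    exact nonZeroDivisors.ne_zero hg
  have h1 : ∀ f : D.R, IsAlgebraic (Algebra.adjoin ℂ (range D.xiK)) (algebraMap D.R D.K f) := by
    intro f
    exact isAlgebraic_algebraMap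
      (⟨algebraMap D.R D.K f, D.algebraMap_mem_adjoin f⟩ : Algebra.adjoin ℂ (range D.xiK))
  rw [div_eq_mul_inv]
  exact (h1 f).mul (h1 g).inv

theorem trdeg_le [CompactSpace X] : Algebra.trdeg ℂ D.K ≤ n := by
  haveI := D.isAlgebraic_adjoin
  obtain ⟨t, hts, ht⟩ := exists_isTranscendenceBasis_subset (R := ℂ) (A := D.K) (range D.xiK)
  rw [← ht.cardinalMk_eq_trdeg]
  by_contra hlt
  push Not at hlt
  have h1 : ((n + 1 : ℕ) : Cardinal) ≤ #t := by
    rw [Cardinal.nat_succ]
    exact Order.succ_le_of_lt hlt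
  obtain ⟨b⟩ : Nonempty (Fin (n + 1) ↪ t) := by
    rw [← Cardinal.le_def, Cardinal.mk_fin]
    exact h1
  have h2 : ∀ i, ∃ j, D.xiK j = (b i : D.K) := fun i => hts (b i).2
  choose a ha using h2
  obtain ⟨p, hp0, hp⟩ := D.siegel a
  have h3 : AlgebraicIndependent ℂ (fun i => (b i : D.K)) := ht.1.comp b b.injective
  apply hp0
  apply h3
  rw [map_zero]
  have h4 : MvPolynomial.aeval (fun i => D.xiR (a i)) p = 0 := by
    apply D.R_ext
    intro x hx
    rw [D.ext_aeval_xiR a p hx, hp x hx, D.ext_of_mem _ hx]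
    rfl
  have h5 : (fun i => (b i : D.K)) = fun i => algebraMap D.R D.K (D.xiR (a i)) := by
    funext i
    rw [← ha i]
    rfl
  rw [h5]
  have h6 := MvPolynomial.aeval_algebraMap_apply D.K (fun i => D.xiR (a i)) p
  rw [h4, map_zero] at h6
  exact h6

variable [Algebra (MvPolynomial (Fin n) ℂ) D.K] [IsScalarTower ℂ (MvPolynomial (Fin n) ℂ) D.K]
  [FaithfulSMul (MvPolynomial (Fin n) ℂ) D.K]

lemma algebraicIndependent_z : AlgebraicIndependent ℂ
    (fun i : Fin n => algebraMap (MvPolynomial (Fin n) ℂ) D.K (MvPolynomial.X i)) := by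
  have h1 : MvPolynomial.aeval (fun i : Fin n =>
      algebraMap (MvPolynomial (Fin n) ℂ) D.K (MvPolynomial.X i)) =
      (IsScalarTower.toAlgHom ℂ (MvPolynomial (Fin n) ℂ) D.K) := by
    ext i
    simp
  unfold AlgebraicIndependent
  rw [h1]
  exact FaithfulSMul.algebraMap_injective (MvPolynomial (Fin n) ℂ) D.K

theorem isAlgebraic_pol [CompactSpace X] : Algebra.IsAlgebraic (MvPolynomial (Fin n) ℂ) D.K := by
  have h1 : IsTranscendenceBasis ℂ
      (fun i : Fin n => algebraMap (MvPolynomial (Fin n) ℂ) D.K (MvPolynomial.X i)) := by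
    refine (D.algebraicIndependent_z).isTranscendenceBasis_of_lift_trdeg_le_of_finite ?_
    simpa using D.trdeg_le
  have h2 := h1.isAlgebraic
  constructor
  intro a
  have h3 := h2.isAlgebraic a
  obtain ⟨q, hq0, hq⟩ := h3
  let φ := h1.1.aevalEquiv
  refine ⟨q.map (φ.symm : _ →+* MvPolynomial (Fin n) ℂ), ?_, ?_⟩
  · rw [ne_eq, Polynomial.map_eq_zero_iff]
    · exact hq0
    · exact φ.symm.injective
  · rw [Polynomial.aeval_def, Polynomial.eval₂_map, ← hq, Polynomial.aeval_def]
    congr 1
    ext c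
    obtain ⟨g, rfl⟩ := φ.surjective c
    simp only [RingHom.comp_apply, RingHom.coe_coe, AlgEquiv.symm_apply_apply]
    have h6 : algebraMap (Algebra.adjoin ℂ (range fun i : Fin n =>
        algebraMap (MvPolynomial (Fin n) ℂ) D.K (MvPolynomial.X i))) D.K (φ g) =
        MvPolynomial.aeval (fun i : Fin n =>
          algebraMap (MvPolynomial (Fin n) ℂ) D.K (MvPolynomial.X i)) g :=
      AlgebraicIndependent.algebraMap_aevalEquiv h1.1 g
    rw [h6]
    have h7 : MvPolynomial.aeval (fun i : Fin n =>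
        algebraMap (MvPolynomial (Fin n) ℂ) D.K (MvPolynomial.X i)) =
        (IsScalarTower.toAlgHom ℂ (MvPolynomial (Fin n) ℂ) D.K) := by
      ext i
      simp
    rw [h7]
    rfl

variable [Algebra (FractionRing (MvPolynomial (Fin n) ℂ)) D.K]
  [IsScalarTower (MvPolynomial (Fin n) ℂ) (FractionRing (MvPolynomial (Fin n) ℂ)) D.K]

/-- `K` is a finite extension of `ℂ(z₁, …, z_n)`. -/
theorem finiteDimensional [CompactSpace X] :
    FiniteDimensional (FractionRing (MvPolynomial (Fin n) ℂ)) D.K := by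
  haveI := D.isAlgebraic_pol
  have halg : ∀ a : D.K, IsIntegral (FractionRing (MvPolynomial (Fin n) ℂ)) a := fun a =>
    ((IsFractionRing.isAlgebraic_iff (MvPolynomial (Fin n) ℂ)
      (FractionRing (MvPolynomial (Fin n) ℂ)) D.K).1 (Algebra.IsAlgebraic.isAlgebraic a)).isIntegral
  have h1 : FiniteDimensional (FractionRing (MvPolynomial (Fin n) ℂ))
      (IntermediateField.adjoin (FractionRing (MvPolynomial (Fin n) ℂ)) (range D.xiK)) :=
    IntermediateField.finiteDimensional_adjoin fun a _ => halg a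
  have h2 : IntermediateField.adjoin (FractionRing (MvPolynomial (Fin n) ℂ)) (range D.xiK) = ⊤ := by
    rw [eq_top_iff]
    rintro a -
    obtain ⟨f, g, hg, rfl⟩ := IsFractionRing.div_surjective (A := D.R) a
    have h3 : ∀ f : D.R, algebraMap D.R D.K f ∈
        IntermediateField.adjoin (FractionRing (MvPolynomial (Fin n) ℂ)) (range D.xiK) := by
      intro f
      have h4 := D.algebraMap_mem_adjoin f
      refine Algebra.adjoin_induction (p := fun x _ => x ∈ IntermediateField.adjoin
        (FractionRing (MvPolynomial (Fin n) ℂ)) (range D.xiK)) ?_ ?_ ?_ ?_ h4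
      · intro x hx
        exact IntermediateField.subset_adjoin _ _ hx
      · intro c
        have : algebraMap ℂ D.K c = algebraMap (FractionRing (MvPolynomial (Fin n) ℂ)) D.K
            (algebraMap (MvPolynomial (Fin n) ℂ) _ (MvPolynomial.C c)) := by
          rw [← IsScalarTower.algebraMap_apply (MvPolynomial (Fin n) ℂ)
            (FractionRing (MvPolynomial (Fin n) ℂ)) D.K]
          rw [IsScalarTower.algebraMap_apply ℂ (MvPolynomial (Fin n) ℂ) D.K]
          rfl
        rw [this]
        exact IntermediateField.algebraMap_mem _ _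
      · intro x y _ _ hx hy
        exact add_mem hx hy
      · intro x y _ _ hx hy
        exact mul_mem hx hy
    exact div_mem (h3 f) (h3 g)
  rw [h2] at h1
  exact (IntermediateField.topEquiv (F := FractionRing (MvPolynomial (Fin n) ℂ))
    (E := D.K)).toLinearEquiv.finiteDimensional

end ProjData

end Vale.Agent.P299.H908
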