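import Vale.Agent.P299.H908.Model2
import Vale.Agent.P299.H212.FM

/-!
# P299 / H908: thin sets; the data `FM` of helper212 for `ProjData`
-/

set_option linter.all false

open Metric Filter Topology Set
open Vale.Agent.P272.K
open Vale.Agent.P299.H212 (Thin FM genF)
open scoped Manifold ContDiff Cardinal

noncomputable section

namespace Vale.Agent.P299.H908

namespace ProjData

variable {n : ℕ} {X : Type} [TopologicalSpace X] [ChartedSpace (Cm n) X] (D : ProjData n X)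
  [PreconnectedSpace X]

/-- the affine part is dense -/
lemma aff_dense (x : X) {V : Set X} (hV : V ∈ 𝓝 x) : ∃ y ∈ V, y ∈ D.Aff := by
  let U : Set X := {y | ∀ᶠ z in 𝓝 y, z ∉ D.Aff}
  have hU : IsOpen U := by
    rw [isOpen_iff_mem_nhds]
    intro y hy
    exact hy.eventually_nhds
  have hUc : IsClosed U := by
    rw [← closure_subset_iff_isClosed]
    intro y hy
    obtain ⟨W, g, k, hW, hg, hk, hk0, hgk⟩ := D.exists_local 1 y
    obtain ⟨V, hVo, hyV, hVW, hid⟩ := exists_ball_identity (n := n) y hW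
    obtain ⟨w, hwV, hwU⟩ := mem_closure_iff.1 hy V hVo hyV
    have h1 : ∀ y' ∈ V, k y' = 0 := by
      refine hid k hk ⟨w, hwV, ?_⟩
      filter_upwards [hwU, hVo.mem_nhds hwV] with z hz hzV
      by_contra h0
      exact hz ((hk0 z (hVW hzV)).1 h0)
    show ∀ᶠ z in 𝓝 y, z ∉ D.Aff
    filter_upwards [hVo.mem_nhds hyV] with z hzV hza
    exact (hk0 z (hVW hzV)).2 hza (h1 z hzV)
  by_contra h
  push Not at h
  have hUn : U.Nonempty := ⟨x, by
    show ∀ᶠ z in 𝓝 x, z ∉ D.Aff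
    filter_upwards [hV] with z hz
    exact h z hz⟩
  have hUu : U = univ := IsClopen.eq_univ ⟨hUc, hU⟩ hUn
  obtain ⟨x0, hx0⟩ := D.aff_nonempty
  have hx : x0 ∈ U := by rw [hUu]; trivial
  exact mem_of_mem_nhds (show {z | z ∉ D.Aff} ∈ 𝓝 x0 from hx) hx0

lemma exists_ne {f : D.R} (hf : f ≠ 0) (x : X) {V : Set X} (hV : V ∈ 𝓝 x) :
    ∃ y ∈ V, y ∈ D.Aff ∧ D.ext f y ≠ 0 := by
  obtain ⟨V', hV'V, hV'o, hxV'⟩ := mem_nhds_iff.1 hV
  obtain ⟨y, hyV, hya⟩ := D.aff_dense x (hV'o.mem_nhds hxV')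
  obtain ⟨z, hz, hza, hz0⟩ := D.exists_ne_of_ne hf hya (hV'o.mem_nhds hyV)
  exact ⟨z, hV'V hz, hza, hz0⟩

variable [IsManifold 𝓘(ℂ, Cm n) ω X]

theorem thin_ext {f : D.R} (hf : f ≠ 0) :
    Thin (n := n) {x : X | ¬ (x ∈ D.Aff ∧ D.ext f x ≠ 0)} := by
  refine H212.thin_of_chart fun x => ⟨chartAt (Cm n) x, at_chartAt' x, ?_⟩
  have he := at_chartAt' (n := n) x
  set e := chartAt (Cm n) x with hedef
  obtain ⟨W, g, k, hW, hg, hk, hk0, hgk⟩ := D.exists_local f x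
  have hxW : x ∈ W := mem_of_mem_nhds hW
  have ht : Tendsto e.symm (𝓝 (e x)) (𝓝 x) := by
    have := (e.continuousAt_symm he.mem_target).tendsto
    rwa [he.left_inv] at this
  refine ⟨fun z => g (e.symm z) * k (e.symm z), (hg x hxW e he).mul (hk x hxW e he), ?_, ?_⟩
  · intro h
    have h1 : ∀ᶠ y in 𝓝 x, g y * k y = 0 := by
      have h2 : Tendsto e (𝓝 x) (𝓝 (e x)) := (e.continuousAt he.2).tendsto
      filter_upwards [h2.eventually h, e.open_source.mem_nhds he.2] with y hy hys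
      rwa [e.left_inv hys] at hy
    obtain ⟨y, ⟨hy1, hy2⟩, hya, hy0⟩ := D.exists_ne hf x (Filter.inter_mem h1 hW)
    rw [mem_setOf_eq, hgk y hy2 hya] at hy1
    have h3 := (hk0 y hy2).2 hya
    exact mul_ne_zero (mul_ne_zero hy0 h3) h3 hy1
  · filter_upwards [ht.eventually hW] with z hz h0 h1
    apply h1
    have h2 : e.symm z ∈ D.Aff := (hk0 _ hz).1 (right_ne_zero_of_mul h0)
    refine ⟨h2, fun h3 => ?_⟩
    have h4 := left_ne_zero_of_mul h0
    rw [hgk _ hz h2, h3, zero_mul] at h4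
    exact h4 rfl

/-- the evaluation at a point -/
def evR (x : X) : D.R →ₐ[ℂ] ℂ :=
  open Classical in
  if h : x ∈ D.Aff then (Pi.evalAlgHom ℂ (fun _ : D.Aff => ℂ) ⟨x, h⟩).comp D.R.val
  else (Pi.evalAlgHom ℂ (fun _ : D.Aff => ℂ) ⟨_, D.aff_nonempty.choose_spec⟩).comp D.R.val

omit [IsManifold 𝓘(ℂ, Cm n) ω X] [PreconnectedSpace X] in
lemma evR_eq (f : D.R) {x : X} (hx : x ∈ D.Aff) : D.evR x f = D.ext f x := by
  unfold evR
  rw [dif_pos hx, D.ext_of_mem f hx]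
  rfl

/-- the data of helper212 -/
def fm : FM n X D.R where
  Xa := D.Aff
  isOpen := D.isOpen_aff
  ev := D.evR
  holo := by
    intro a e x he hx
    refine (D.ext_holAt a hx e he).congr ?_
    have ht : Tendsto e.symm (𝓝 (e x)) (𝓝 x) := by
      have := (e.continuousAt_symm he.mem_target).tendsto
      rwa [he.left_inv] at this
    filter_upwards [ht.eventually (D.isOpen_aff.mem_nhds hx)] with z hz
    exact (D.evR_eq a hz).symm
  thin := by
    intro a ha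
    refine (D.thin_ext ha).mono ?_
    intro x hx h
    exact hx ⟨h.1, by rw [D.evR_eq a h.1]; exact h.2⟩

@[simp] lemma fm_Xa : D.fm.Xa = D.Aff := rfl

lemma fm_ev (f : D.R) {x : X} (hx : x ∈ D.Aff) : D.fm.ev x f = D.ext f x := D.evR_eq f hx

variable {D}

theorem RegAt.fm {a : D.K} {x : X} (h : D.RegAt a x) : H212.RegAt D.fm x a (D.val a x) := by
  obtain ⟨hx, f, g, hg, hfg⟩ := h
  refine ⟨hx, f, g, by rw [mul_comm, hfg], by rwa [D.fm_ev g hx], ?_⟩
  rw [D.fm_ev g hx, D.fm_ev f hx, val_eq hx hg hfg]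

theorem regAt_of_fm {a : D.K} {x : X} {v : ℂ} (h : H212.RegAt D.fm x a v) :
    D.RegAt a x ∧ D.val a x = v := by
  obtain ⟨hx, f, g, hfg, hg, hv⟩ := h
  have hx : x ∈ D.Aff := hx
  rw [D.fm_ev g hx] at hg
  rw [mul_comm] at hfg
  refine ⟨⟨hx, f, g, hg, hfg⟩, ?_⟩
  rw [val_eq hx hg hfg, hv, D.fm_ev f hx, D.fm_ev g hx]

theorem regAt_fm_iff {a : D.K} {x : X} {v : ℂ} :
    H212.RegAt D.fm x a v ↔ D.RegAt a x ∧ D.val a x = v :=
  ⟨regAt_of_fm, fun ⟨h1, h2⟩ => h2 ▸ h1.fm⟩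

variable (D)

theorem genF_regAt (a : D.K) : ∀ᶠ x in genF n X, D.RegAt a x := by
  filter_upwards [H212.genF_reg D.fm a] with x ⟨v, hv⟩
  exact (regAt_of_fm hv).1

theorem genF_val_ne {a : D.K} (ha : a ≠ 0) : ∀ᶠ x in genF n X, D.RegAt a x ∧ D.val a x ≠ 0 := by
  filter_upwards [H212.genF_reg_ne D.fm ha] with x ⟨v, hv, h0⟩
  exact ⟨(regAt_of_fm hv).1, by rw [(regAt_of_fm hv).2]; exact h0⟩

theorem thin_regAt (a : D.K) : Thin (n := n) {x : X | ¬ D.RegAt a x} := D.genF_regAt a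

theorem thin_val {a : D.K} (ha : a ≠ 0) :
    Thin (n := n) {x : X | ¬ (D.RegAt a x ∧ D.val a x ≠ 0)} := D.genF_val_ne ha

end ProjData

end Vale.Agent.P299.H908
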