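import Vale.Agent.P299.H908.Val
import Vale.Agent.P282.Bd3.B1

/-!
# P299 / H908: the algebraic model of an open part of `X`
-/

set_option linter.all false

open Metric Filter Topology Set
open Vale.Agent.P272.K
open Vale.Agent.P282.L2 (Pol pev Prim Sheets)
open scoped Manifold ContDiff Cardinal

noncomputable section

namespace Vale.Agent.P299.H908

namespace ProjData

variable {n : ℕ} {X : Type} [TopologicalSpace X] [ChartedSpace (Cm n) X] (D : ProjData n X)
  [PreconnectedSpace X]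
  [Algebra (Pol n) D.K] [IsScalarTower ℂ (Pol n) D.K] [FaithfulSMul (Pol n) D.K]

/-- the coordinates `z_i` as elements of `K` -/
def zK (i : Fin n) : D.K := algebraMap (Pol n) D.K (MvPolynomial.X i)

lemma algebraMap_pol (f : Pol n) : algebraMap (Pol n) D.K f = MvPolynomial.aeval D.zK f := by
  have h1 : MvPolynomial.aeval D.zK = IsScalarTower.toAlgHom ℂ (Pol n) D.K := by
    ext i
    simp [zK]
  rw [h1]
  rfl

/-- A common denominator `b ∈ R` of the coordinates `z_i` and of the primitive element, such that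
the affine coordinates and `1/b` are regular on the cover. -/
structure Den (E : Prim n D.K) where
  b : D.R
  b0 : b ≠ 0
  zb : Fin n → D.R
  hz : ∀ i, D.zK i * algebraMap D.R D.K b = algebraMap D.R D.K (zb i)
  yb : D.R
  hy : E.y * algebraMap D.R D.K b = algebraMap D.R D.K yb
  regb : E.IsReg (algebraMap D.R D.K b)⁻¹
  regxi : ∀ i, E.IsReg (D.xiK i)

namespace Den

variable {D} {E : Prim n D.K} (B : D.Den E)

/-- the coordinates `z(x)` -/
def zv (x : X) : Fin n → ℂ := fun i => D.val (D.zK i) x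

/-- the open part of `X` -/
def X0 : Set X := {x | x ∈ D.Aff ∧ D.ext B.b x ≠ 0 ∧ MvPolynomial.eval (zv (D := D) x) E.h ≠ 0}

/-- the map to the cover -/
def θ (E : Prim n D.K) (x : X) : (Fin n → ℂ) × ℂ := (zv (D := D) x, D.val E.y x)

variable {B}

lemma reg_z {x : X} (hx : x ∈ D.Aff) (hb : D.ext B.b x ≠ 0) (i : Fin n) : D.RegAt (D.zK i) x :=
  ⟨hx, B.zb i, B.b, hb, B.hz i⟩

lemma reg_y {x : X} (hx : x ∈ D.Aff) (hb : D.ext B.b x ≠ 0) : D.RegAt E.y x :=
  ⟨hx, B.yb, B.b, hb, B.hy⟩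

lemma reg_pol {x : X} (hx : x ∈ D.Aff) (hb : D.ext B.b x ≠ 0) (f : Pol n) :
    D.RegAt (algebraMap (Pol n) D.K f) x ∧
      D.val (algebraMap (Pol n) D.K f) x = MvPolynomial.eval (zv (D := D) x) f := by
  rw [algebraMap_pol]
  exact RegAt.aeval_mv hx (fun i => B.reg_z hx hb i) f

lemma reg_aeval {x : X} (hx : x ∈ D.Aff) (hb : D.ext B.b x ≠ 0) (f : Polynomial (Pol n)) :
    D.RegAt (Polynomial.aeval E.y f) x ∧
      D.val (Polynomial.aeval E.y f) x = pev f (θ E x) := by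
  induction f using Polynomial.induction_on' with
  | add p q hp hq =>
    rw [map_add, Prim.pev_add, ← hp.2, ← hq.2]
    exact hp.1.add hq.1
  | monomial k c =>
    have h1 := (B.reg_pol hx hb c)
    have h2 := (B.reg_y hx hb).pow k
    have h3 := h1.1.mul h2.1
    rw [Polynomial.aeval_monomial]
    refine ⟨h3.1, ?_⟩
    rw [h3.2, h1.2, h2.2]
    simp [pev, θ]

lemma reg_of_isReg {x : X} (hx : x ∈ B.X0) {a : D.K} (ha : E.IsReg a) :
    ∃ (f : Polynomial (Pol n)) (k : ℕ),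
      algebraMap (Pol n) D.K E.h ^ k * a = Polynomial.aeval E.y f ∧ D.RegAt a x ∧
      D.val a x = pev f (θ E x) / MvPolynomial.eval (θ E x).1 E.h ^ k := by
  obtain ⟨f, k, hf⟩ := ha
  obtain ⟨hxa, hb, hh⟩ := hx
  refine ⟨f, k, hf, ?_⟩
  have h1 := (B.reg_pol hxa hb E.h)
  have h2 := h1.1.pow k
  have h3 : D.val (algebraMap (Pol n) D.K E.h ^ k) x ≠ 0 := by
    rw [h2.2, h1.2]
    exact pow_ne_zero _ hh
  have h4 := h2.1.inv h3
  have h5 := B.reg_aeval hxa hb f
  have h6 := h4.1.mul h5.1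
  have h7 : (algebraMap (Pol n) D.K E.h ^ k)⁻¹ * Polynomial.aeval E.y f = a := by
    rw [← hf, inv_mul_cancel_left₀]
    exact pow_ne_zero _ (Prim.ev_aux_h E)
  rw [h7] at h6
  refine ⟨h6.1, ?_⟩
  rw [h6.2, h4.2, h5.2, h2.2, h1.2, inv_mul_eq_div]
  rfl

variable {N : ℕ} {S : Sheets n N}

lemma θ_mem (hS : E.IsSheets S) {x : X} (hx : x ∈ B.X0) : θ E x ∈ S.M := by
  refine ⟨(hS.1 _).2 hx.2.2, (hS.2 _ _).2 ?_⟩
  have h1 := B.reg_aeval hx.1 hx.2.1 (minpoly (Pol n) E.y)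
  rw [minpoly.aeval, val_zero hx.1] at h1
  exact h1.2.symm

lemma reg (hS : E.IsSheets S) {x : X} (hx : x ∈ B.X0) {a : D.K} (ha : E.IsReg a) :
    D.RegAt a x ∧ D.val a x = E.ev a (θ E x) := by
  obtain ⟨f, k, hf, h1, h2⟩ := B.reg_of_isReg hx ha
  exact ⟨h1, by rw [h2, Prim.ev_eq hS (B.θ_mem hS hx) hf]⟩

lemma xi_eq (hS : E.IsSheets S) {x : X} (hx : x ∈ B.X0) (i : Fin (D.N + 1)) :
    D.xi i x = E.ev (D.xiK i) (θ E x) := by
  rw [← (B.reg hS hx (B.regxi i)).2]
  unfold xiK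
  rw [val_algebraMap _ hx.1, D.ext_xiR i hx.1]

lemma θ_inj (hS : E.IsSheets S) {x x' : X} (hx : x ∈ B.X0) (hx' : x' ∈ B.X0)
    (h : θ E x = θ E x') : x = x' := by
  apply D.inj
  have h1 : ∀ i, D.xi i x = D.xi i x' := fun i => by rw [B.xi_eq hS hx, B.xi_eq hS hx', h]
  have h2 : D.Z x D.j0 ≠ 0 := hx.1
  have h3 : D.Z x' D.j0 ≠ 0 := hx'.1
  refine ⟨D.Z x D.j0 / D.Z x' D.j0, funext fun i => ?_⟩
  have h4 := h1 i
  unfold xi at h4
  rw [div_eq_div_iff h2 h3] at h4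
  simp only [Pi.smul_apply, smul_eq_mul]
  field_simp
  linear_combination h4

lemma zv_holAt {x : X} (hx : x ∈ B.X0) (i : Fin n) :
    HolAt n (fun y => zv (D := D) y i) x :=
  (B.reg_z hx.1 hx.2.1 i).eventually.2

lemma zv_continuousAt {x : X} (hx : x ∈ B.X0) : ContinuousAt (zv (D := D)) x :=
  continuousAt_pi.2 fun i => (B.zv_holAt hx i).continuousAt

lemma y_continuousAt {x : X} (hx : x ∈ B.X0) : ContinuousAt (D.val E.y) x :=
  (B.reg_y hx.1 hx.2.1).eventually.2.continuousAt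

lemma continuous_mvEval (f : Pol n) : Continuous fun z : Fin n → ℂ => MvPolynomial.eval z f :=
  MvPolynomial.continuous_eval f

lemma isOpen_X0 : IsOpen B.X0 := by
  rw [isOpen_iff_mem_nhds]
  intro x hx
  have h1 := (D.ext_holAt B.b hx.1).continuousAt.eventually_ne hx.2.1
  have h2 : ContinuousAt (fun y => MvPolynomial.eval (zv (D := D) y) E.h) x :=
    (continuous_mvEval E.h).continuousAt.comp (B.zv_continuousAt hx)
  filter_upwards [h1, h2.eventually_ne hx.2.2, D.isOpen_aff.mem_nhds hx.1] with y h3 h4 h5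
  exact ⟨h5, h3, h4⟩

/-- sections of the cover separate: near a point of a section every point of the cover close to it
is on the section -/
lemma near_section {W : Set (Fin n → ℂ)} {s : (Fin n → ℂ) → ℂ} (hs : S.IsSection W s)
    {z0 : Fin n → ℂ} (hz0 : z0 ∈ W) : ∀ᶠ q in 𝓝 (z0, s z0), q ∈ S.M → q.2 = s q.1 := by
  obtain ⟨W₀, σ, hW₀, hz₀, -, hσ, hfib⟩ := S.loc z0 (hs.subset hz0)
  have h2 := hs.mem z0 hz0
  rw [(hfib z0 hz₀).2] at h2
  obtain ⟨i, -, hi⟩ := Finset.mem_image.1 h2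
  have h3 : s =ᶠ[𝓝 z0] σ i := Sheets.germ_aux hs hz0 hW₀ hz₀ hσ hfib hi
  have hcσ : ∀ i, ContinuousAt (σ i) z0 := fun i =>
    (hσ i).continuousOn.continuousAt (hW₀.mem_nhds hz₀)
  have h4 : ∀ᶠ q : (Fin n → ℂ) × ℂ in 𝓝 (z0, s z0), ∀ l : Fin N, l ≠ i → q.2 ≠ σ l q.1 := by
    rw [Filter.eventually_all]
    intro l
    by_cases hl : l = i
    · exact Filter.Eventually.of_forall fun q h' => absurd hl h'
    · have h5 : s z0 ≠ σ l z0 := by
        rw [← hi]
        intro h6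
        exact hl ((hfib z0 hz₀).1 h6.symm)
      have h6 : ContinuousAt (fun q : (Fin n → ℂ) × ℂ => σ l q.1) (z0, s z0) :=
        ContinuousAt.comp (g := σ l) (f := Prod.fst) (x := (z0, s z0)) (hcσ l) continuousAt_fst
      have h7 : ContinuousAt (fun q : (Fin n → ℂ) × ℂ => q.2 - σ l q.1) (z0, s z0) :=
        continuousAt_snd.sub h6
      filter_upwards [h7.eventually_ne (sub_ne_zero.2 h5)] with q hq _ h8
      exact hq (sub_eq_zero.2 h8)
  have h5 : ∀ᶠ q : (Fin n → ℂ) × ℂ in 𝓝 (z0, s z0), q.1 ∈ W₀ :=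
    continuousAt_fst.eventually (hW₀.mem_nhds hz₀)
  have h6 : ∀ᶠ q : (Fin n → ℂ) × ℂ in 𝓝 (z0, s z0), s q.1 = σ i q.1 := by
    have h3' : ∀ᶠ z in 𝓝 (z0, s z0).1, s z = σ i z := h3
    exact continuousAt_fst.eventually h3'
  filter_upwards [h4, h5, h6] with q h7 h8 h9 hq
  have h10 := hq.2
  rw [(hfib q.1 h8).2] at h10
  obtain ⟨l, -, hl⟩ := Finset.mem_image.1 h10
  by_cases hli : l = i
  · rw [h9, ← hl, hli]
  · exact absurd hl.symm (h7 l hli)

/-- near `x ∈ X0` the map `θ` is on a section -/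
lemma θ_section (hS : E.IsSheets S) {x : X} (hx : x ∈ B.X0) {W : Set (Fin n → ℂ)}
    {s : (Fin n → ℂ) → ℂ} (hs : S.IsSection W s) (hW : zv (D := D) x ∈ W)
    (hsx : s (zv (D := D) x) = D.val E.y x) :
    ∀ᶠ y in 𝓝 x, y ∈ B.X0 ∧ zv (D := D) y ∈ W ∧ θ E y = (zv (D := D) y, s (zv (D := D) y)) := by
  have h1 := near_section hs hW
  have h2 : ContinuousAt (θ E) x := (B.zv_continuousAt hx).prodMk (B.y_continuousAt hx)
  have h3 : θ E x = (zv (D := D) x, s (zv (D := D) x)) := by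
    rw [hsx]
    rfl
  rw [← h3] at h1
  filter_upwards [h2.eventually h1, B.isOpen_X0.mem_nhds hx,
    (B.zv_continuousAt hx).eventually (hs.isOpen.mem_nhds hW)] with y h4 h5 h6
  refine ⟨h5, h6, ?_⟩
  have h7 := h4 (B.θ_mem hS h5)
  exact Prod.ext rfl h7

/-- `z` is an immersion at the points of `X0` -/
lemma z_immersion (hS : E.IsSheets S) {x : X} (hx : x ∈ B.X0) {e : Chart n X} (he : At e x)
    (v : Cm n) (hv : fderiv ℂ (fun z => zv (D := D) (e.symm z)) (e x) v = 0) : v = 0 := by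
  obtain ⟨s, W, hs, hW, hsx⟩ := Sheets.exists_section (B.θ_mem hS hx)
  have h1 := B.θ_section hS hx hs hW hsx
  refine D.imm e x he D.j0 hx.1 v fun i => ?_
  have h2 : (fun z => D.Z (e.symm z) i / D.Z (e.symm z) D.j0) =ᶠ[𝓝 (e x)]
      fun z => (fun ζ => E.ev (D.xiK i) (ζ, s ζ)) (zv (D := D) (e.symm z)) := by
    have h3 : Tendsto e.symm (𝓝 (e x)) (𝓝 x) := by
      have := (e.continuousAt_symm he.mem_target).tendsto
      rwa [he.left_inv] at this
    filter_upwards [h3.eventually h1] with z hz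
    have h4 := B.xi_eq hS hz.1 i
    rw [hz.2.2] at h4
    exact h4
  rw [h2.fderiv_eq]
  have h5 : DifferentiableAt ℂ (fun z => zv (D := D) (e.symm z)) (e x) := by
    rw [differentiableAt_pi]
    exact fun i => (B.zv_holAt hx i e he).differentiableAt
  have h6 : DifferentiableAt ℂ (fun ζ => E.ev (D.xiK i) (ζ, s ζ)) (zv (D := D) (e.symm (e x))) := by
    rw [he.left_inv]
    exact (Prim.holo_ev hS (B.regxi i) W s hs).differentiableAt (hs.isOpen.mem_nhds hW)
  have h7 := fderiv_comp (e x) h6 h5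
  have h8 : fderiv ℂ (fun z => (fun ζ => E.ev (D.xiK i) (ζ, s ζ)) (zv (D := D) (e.symm z)))
      (e x) = _ := h7
  rw [h8, ContinuousLinearMap.comp_apply, hv, map_zero]

end Den

end ProjData

end Vale.Agent.P299.H908
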