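import Vale.Agent.P299.H908.Model
import Mathlib.Analysis.Calculus.InverseFunctionTheorem.ContDiff
import Mathlib.Topology.Compactness.Compact

/-!
# P299 / H908: the map from the open part of `X` to the cover is bijective
-/

set_option linter.all false

open Metric Filter Topology Set
open Vale.Agent.P272.K
open Vale.Agent.P282.L2 (Pol pev Prim Sheets)
open scoped Manifold ContDiff Cardinal

noncomputable section

namespace Vale.Agent.P299.H908

namespace ProjData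

variable {n : ℕ} {X : Type} [TopologicalSpace X] [ChartedSpace (Cm n) X] {D : ProjData n X}
  [PreconnectedSpace X]
  [Algebra (Pol n) D.K] [IsScalarTower ℂ (Pol n) D.K] [FaithfulSMul (Pol n) D.K]

namespace Den

variable {E : Prim n D.K} {B : D.Den E} {N : ℕ} {S : Sheets n N}

/-- `z` maps neighbourhoods of `x` onto neighbourhoods of `z(x)` -/
lemma map_zv_nhds (hS : E.IsSheets S) {x : X} (hx : x ∈ B.X0) :
    map (zv (D := D)) (𝓝 x) = 𝓝 (zv (D := D) x) := by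
  have he := at_chartAt' (n := n) x
  set e := chartAt (Cm n) x with hedef
  have h1 : AnalyticAt ℂ (fun z => zv (D := D) (e.symm z)) (e x) := by
    rw [analyticAt_pi_iff]
    exact fun i => B.zv_holAt hx i e he
  have h2 := h1.hasStrictFDerivAt
  have h3 : LinearMap.ker ((fderiv ℂ (fun z => zv (D := D) (e.symm z)) (e x) :
      Cm n →L[ℂ] (Fin n → ℂ)) : Cm n →ₗ[ℂ] (Fin n → ℂ)) = ⊥ := by
    rw [LinearMap.ker_eq_bot']
    intro v hv
    exact B.z_immersion hS hx he v hv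
  have h4 : LinearMap.range ((fderiv ℂ (fun z => zv (D := D) (e.symm z)) (e x) :
      Cm n →L[ℂ] (Fin n → ℂ)) : Cm n →ₗ[ℂ] (Fin n → ℂ)) = ⊤ :=
    LinearMap.range_eq_top.2 (LinearMap.injective_iff_surjective.1 (LinearMap.ker_eq_bot.1 h3))
  have h5 := h2.map_nhds_eq_of_surj h4
  rw [he.left_inv] at h5
  rw [← h5]
  have h6 : map e.symm (𝓝 (e x)) = 𝓝 x := by
    have := e.symm.map_nhds_eq (x := e x) he.mem_target
    rwa [he.left_inv] at this
  rw [← h6, Filter.map_map]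
  rfl

/-- the image of `θ` is open -/
lemma image_open (hS : E.IsSheets S) {W : Set (Fin n → ℂ)} {s : (Fin n → ℂ) → ℂ}
    (hs : S.IsSection W s) {z0 : Fin n → ℂ} (hz0 : z0 ∈ W)
    (h : (z0, s z0) ∈ θ E '' B.X0) : ∀ᶠ ζ in 𝓝 z0, (ζ, s ζ) ∈ θ E '' B.X0 := by
  obtain ⟨x, hx, hxz⟩ := h
  have h1 : zv (D := D) x = z0 := congrArg Prod.fst hxz
  have h2 : D.val E.y x = s z0 := congrArg Prod.snd hxz
  have h3 := B.θ_section hS hx hs (by rw [h1]; exact hz0) (by rw [h1, h2])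
  rw [← h1, ← B.map_zv_nhds hS hx, Filter.eventually_map]
  filter_upwards [h3] with y hy
  exact ⟨y, hy.1, hy.2.2⟩

/-- the image of `θ` is closed -/
lemma image_closed [CompactSpace X] (hS : E.IsSheets S) {W : Set (Fin n → ℂ)}
    {s : (Fin n → ℂ) → ℂ} (hs : S.IsSection W s) {z0 : Fin n → ℂ} (hz0 : z0 ∈ W)
    (h : ∃ᶠ ζ in 𝓝 z0, (ζ, s ζ) ∈ θ E '' B.X0) : (z0, s z0) ∈ θ E '' B.X0 := by
  classical
  set A : Set (Fin n → ℂ) := {ζ | (ζ, s ζ) ∈ θ E '' B.X0} with hA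
  haveI : NeBot (𝓝 z0 ⊓ 𝓟 A) := Filter.frequently_mem_iff_neBot.1 h
  let U : Ultrafilter (Fin n → ℂ) := Ultrafilter.of (𝓝 z0 ⊓ 𝓟 A)
  have hU : (U : Filter (Fin n → ℂ)) ≤ 𝓝 z0 ⊓ 𝓟 A := Ultrafilter.of_le _
  have hU1 : (U : Filter (Fin n → ℂ)) ≤ 𝓝 z0 := hU.trans inf_le_left
  have hU2 : ∀ᶠ ζ in (U : Filter (Fin n → ℂ)), ζ ∈ A := hU.trans inf_le_right (mem_principal_self A)
  obtain ⟨x0, hx0⟩ := D.aff_nonempty
  let g : (Fin n → ℂ) → X := fun ζ => if hζ : ζ ∈ A then hζ.choose else x0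
  have hg : ∀ᶠ ζ in (U : Filter (Fin n → ℂ)), g ζ ∈ B.X0 ∧ θ E (g ζ) = (ζ, s ζ) := by
    filter_upwards [hU2] with ζ hζ
    have : g ζ = hζ.choose := by
      simp only [g]
      rw [dif_pos hζ]
    rw [this]
    exact hζ.choose_spec
  obtain ⟨x, -, hx⟩ := (isCompact_univ (X := X)).ultrafilter_le_nhds (U.map g) (by simp)
  have hgx : Tendsto g U (𝓝 x) := hx
  -- limits along sections
  have hev : ∀ a : D.K, E.IsReg a → Tendsto (fun ζ => E.ev a (ζ, s ζ)) U (𝓝 (E.ev a (z0, s z0))) := by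
    intro a ha
    have h1 := ((Prim.holo_ev hS ha W s hs).differentiableAt (hs.isOpen.mem_nhds hz0)).continuousAt
    exact h1.tendsto.mono_left hU1
  have hscont : Tendsto s U (𝓝 (s z0)) :=
    ((hs.diff.differentiableAt (hs.isOpen.mem_nhds hz0)).continuousAt).tendsto.mono_left hU1
  have hval : ∀ a : D.K, E.IsReg a → ∀ᶠ ζ in (U : Filter (Fin n → ℂ)),
      D.val a (g ζ) = E.ev a (ζ, s ζ) := by
    intro a ha
    filter_upwards [hg] with ζ hζ
    rw [(B.reg hS hζ.1 ha).2, hζ.2]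
  -- x is in the affine part
  have hxa : x ∈ D.Aff := by
    obtain ⟨W', s', hW', hs', hsZ⟩ := D.loc x
    have hxW : x ∈ W' := mem_of_mem_nhds hW'
    have hc : ∀ i, Tendsto (fun ζ => s' (g ζ) i) U (𝓝 (s' x i)) := fun i =>
      ((hs' x hxW i).continuousAt.tendsto).comp hgx
    have h2 : ∀ i, s' x i = E.ev (D.xiK i) (z0, s z0) * s' x D.j0 := by
      intro i
      refine tendsto_nhds_unique (hc i) ?_
      refine ((hev _ (B.regxi i)).mul (hc D.j0)).congr' ?_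
      filter_upwards [hg, hval _ (B.regxi i), hgx.eventually hW'] with ζ h3 h4 h5
      rw [← h4]
      unfold xiK
      rw [val_algebraMap _ h3.1.1, D.ext_xiR i h3.1.1]
      obtain ⟨c, hc, hcy⟩ := hsZ _ h5
      rw [hcy]
      simp only [Pi.smul_apply, smul_eq_mul, xi]
      have : D.Z (g ζ) D.j0 ≠ 0 := h3.1.1
      field_simp
    obtain ⟨c, hc0, hcx⟩ := hsZ x hxW
    intro h3
    have h4 : s' x D.j0 = 0 := by
      rw [hcx]
      simp [h3]
    have h5 : s' x = 0 := by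
      funext i
      rw [h2 i, h4, mul_zero]
      rfl
    rw [hcx] at h5
    exact smul_ne_zero hc0 (D.ne x) h5
  -- b does not vanish at x
  have hxb : D.ext B.b x ≠ 0 := by
    have h1 : Tendsto (fun ζ => D.ext B.b (g ζ)) U (𝓝 (D.ext B.b x)) :=
      ((D.ext_holAt B.b hxa).continuousAt.tendsto).comp hgx
    have h2 := h1.mul (hev _ B.regb)
    have h3 : Tendsto (fun ζ => D.ext B.b (g ζ) * E.ev (algebraMap D.R D.K B.b)⁻¹ (ζ, s ζ)) U
        (𝓝 1) := by
      refine tendsto_const_nhds.congr' ?_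
      filter_upwards [hg, hval _ B.regb] with ζ h4 h5
      rw [← h5]
      have h6 := regAt_algebraMap B.b h4.1.1
      have h7 := (h6.inv (by rw [val_algebraMap _ h4.1.1]; exact h4.1.2.1)).2
      rw [h7, val_algebraMap _ h4.1.1, mul_inv_cancel₀ h4.1.2.1]
    have h4 := tendsto_nhds_unique h2 h3
    intro h5
    rw [h5, zero_mul] at h4
    exact zero_ne_one h4
  have hzc : Tendsto (fun ζ => zv (D := D) (g ζ)) U (𝓝 (zv (D := D) x)) :=
    (continuousAt_pi.2 fun i =>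
      (B.reg_z hxa hxb i).eventually.2.continuousAt).tendsto.comp hgx
  have hz : zv (D := D) x = z0 := by
    refine tendsto_nhds_unique hzc ?_
    refine (tendsto_id.mono_left hU1).congr' ?_
    filter_upwards [hg] with ζ hζ
    exact (congrArg Prod.fst hζ.2).symm
  have hx0 : x ∈ B.X0 := ⟨hxa, hxb, by rw [hz]; exact (hS.1 z0).1 (hs.subset hz0)⟩
  refine ⟨x, hx0, ?_⟩
  refine Prod.ext hz ?_
  have hyc : Tendsto (fun ζ => D.val E.y (g ζ)) U (𝓝 (D.val E.y x)) :=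
    (B.y_continuousAt hx0).tendsto.comp hgx
  show D.val E.y x = s z0
  refine tendsto_nhds_unique hyc ?_
  refine hscont.congr' ?_
  filter_upwards [hg] with ζ hζ
  exact (congrArg Prod.snd hζ.2).symm

/-- `X0` meets every neighbourhood of every point of the affine part. -/
lemma exists_mem_X0 {x : X} (hx : x ∈ D.Aff) {V : Set X} (hV : V ∈ 𝓝 x) : ∃ y ∈ V, y ∈ B.X0 := by
  obtain ⟨V', hV'V, hV'o, hxV'⟩ := mem_nhds_iff.1 hV
  obtain ⟨y, hyV, hya, hyb⟩ := D.exists_ne_of_ne B.b0 hx (hV'o.mem_nhds hxV')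
  have h1 := (D.ext_holAt B.b hya).continuousAt.eventually_ne hyb
  have h2 : {y' | D.ext B.b y' ≠ 0} ∩ V' ∈ 𝓝 y := Filter.inter_mem h1 (hV'o.mem_nhds hyV)
  obtain ⟨y', hy', hr, hne⟩ := exists_val_ne (D := D) (a := algebraMap (Pol n) D.K E.h)
    (Prim.ev_aux_h E) hya h2
  refine ⟨y', hV'V hy'.2, hr.aff, hy'.1, ?_⟩
  rw [← (B.reg_pol hr.aff hy'.1 E.h).2]
  exact hne

/-- **Bijectivity**: `θ` maps `X0` onto the cover. -/
theorem θ_surj [CompactSpace X] (hS : E.IsSheets S)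
    (hM3 : ∀ F : (Fin n → ℂ) × ℂ → ℂ, S.Holo F → (∃ C : ℝ, ∀ q ∈ S.M, ‖F q‖ ≤ C) →
      ∃ a, E.IsReg a ∧ ∀ q ∈ S.M, F q = E.ev a q) : θ E '' B.X0 = S.M := by
  classical
  apply Subset.antisymm
  · rintro _ ⟨x, hx, rfl⟩
    exact B.θ_mem hS hx
  let F : (Fin n → ℂ) × ℂ → ℂ := fun q => if q ∈ θ E '' B.X0 then 1 else 0
  have hF1 : ∀ q ∈ θ E '' B.X0, F q = 1 := fun q hq => if_pos hq
  have hF0 : ∀ q ∉ θ E '' B.X0, F q = 0 := fun q hq => if_neg hq
  have hFh : S.Holo F := by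
    intro W s hs z0 hz0
    refine DifferentiableAt.differentiableWithinAt ?_
    by_cases h : (z0, s z0) ∈ θ E '' B.X0
    · have h1 := B.image_open hS hs hz0 h
      have h2 : (fun ζ => F (ζ, s ζ)) =ᶠ[𝓝 z0] fun _ => 1 := h1.mono fun ζ hζ => hF1 _ hζ
      exact (differentiableAt_const _).congr_of_eventuallyEq h2
    · have h1 : ∀ᶠ ζ in 𝓝 z0, (ζ, s ζ) ∉ θ E '' B.X0 := by
        by_contra h2
        exact h (B.image_closed hS hs hz0 (by
          rw [Filter.not_eventually] at h2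
          exact h2.mono fun ζ hζ => not_not.1 hζ))
      have h2 : (fun ζ => F (ζ, s ζ)) =ᶠ[𝓝 z0] fun _ => 0 := h1.mono fun ζ hζ => hF0 _ hζ
      exact (differentiableAt_const _).congr_of_eventuallyEq h2
  obtain ⟨a, ha, haF⟩ := hM3 F hFh ⟨1, fun q _ => by
    by_cases h : q ∈ θ E '' B.X0
    · rw [hF1 q h]; simp
    · rw [hF0 q h]; simp⟩
  obtain ⟨x0, hx0⟩ := D.aff_nonempty
  obtain ⟨x, -, hx⟩ := B.exists_mem_X0 hx0 (univ_mem)
  have hxM := B.θ_mem hS hx
  have h1 : a * a - a = 0 := by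
    refine Prim.eq_zero_of_ev hS ((ha.mul ha).sub ha) (W := univ) isOpen_univ
      ⟨_, trivial, hxM.1⟩ fun q hq _ => ?_
    rw [Prim.ev_sub hS hq (ha.mul ha) ha, Prim.ev_mul hS hq ha ha, ← haF q hq]
    by_cases h : q ∈ θ E '' B.X0
    · rw [hF1 q h]; ring
    · rw [hF0 q h]; ring
  have h2 : a = 1 := by
    have h3 : a * (a - 1) = 0 := by linear_combination h1
    rcases mul_eq_zero.1 h3 with h4 | h4
    · exfalso
      have h5 := haF _ hxM
      rw [hF1 _ ⟨x, hx, rfl⟩, h4, Prim.ev_zero hS hxM] at h5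
      exact one_ne_zero h5
    · exact sub_eq_zero.1 h4
  intro q hq
  by_contra h
  have h5 := haF q hq
  rw [hF0 q h, h2, Prim.ev_one hS hq] at h5
  exact zero_ne_one h5

end Den

end ProjData

end Vale.Agent.P299.H908
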