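import Vale.Agent.P299.H908.Jet
import Vale.Agent.P272.K.Stmt

/-!
# P299 / H908: Siegel's lemma

On a compact complex manifold of dimension `n` the quotients of `n + 2` sections of a line bundle
are algebraically dependent.
-/

set_option linter.all false

open Metric Filter Topology Asymptotics
open Vale.Agent.P272.K
open scoped Manifold ContDiff

noncomputable section

namespace Vale.Agent.P299.H908

variable {n : ℕ} {X : Type*} [TopologicalSpace X] [ChartedSpace (Cm n) X]

/-- finite cover by chart balls -/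
theorem exists_cover [CompactSpace X] : ∃ (T : Finset X) (r : X → ℝ), (∀ a, 0 < r a) ∧
    (∀ a, closedBall (chartAt (Cm n) a a) (2 * r a) ⊆ (chartAt (Cm n) a).target) ∧
    ∀ x, ∃ a ∈ T, x ∈ (chartAt (Cm n) a).source ∧
      chartAt (Cm n) a x ∈ ball (chartAt (Cm n) a a) (r a) := by
  have h1 : ∀ a : X, ∃ r : ℝ, 0 < r ∧
      closedBall (chartAt (Cm n) a a) (2 * r) ⊆ (chartAt (Cm n) a).target := by
    intro a
    obtain ⟨ρ, hρ, h⟩ := Metric.isOpen_iff.1 (chartAt (Cm n) a).open_target _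
      (mem_chart_target (Cm n) a)
    refine ⟨ρ / 4, by positivity, (closedBall_subset_ball ?_).trans h⟩
    linarith
  choose r hr hb using h1
  let V : X → Set X := fun a => (chartAt (Cm n) a).source ∩
    chartAt (Cm n) a ⁻¹' ball (chartAt (Cm n) a a) (r a)
  have hV : ∀ a ∈ (Set.univ : Set X), V a ∈ 𝓝 a := by
    intro a _
    have h2 : IsOpen (V a) := (chartAt (Cm n) a).isOpen_inter_preimage isOpen_ball
    exact h2.mem_nhds ⟨mem_chart_source (Cm n) a, mem_ball_self (hr a)⟩
  obtain ⟨T, -, hT⟩ := (isCompact_univ (X := X)).elim_nhds_subcover V hV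
  refine ⟨T, r, hr, hb, fun x => ?_⟩
  have := hT (Set.mem_univ x)
  simp only [Set.mem_iUnion] at this
  obtain ⟨a, ha, hx⟩ := this
  exact ⟨a, ha, hx.1, hx.2⟩

theorem exists_q (N m0 n : ℕ) : ∃ q : ℕ, 0 < q ∧
    N * (m0 * ((n + 1) * q) + 1) ^ n < q ^ (n + 1) := by
  refine ⟨N * (m0 * (n + 1) + 1) ^ n + 1, Nat.succ_pos _, ?_⟩
  set q := N * (m0 * (n + 1) + 1) ^ n + 1 with hq
  have hq1 : 1 ≤ q := by omega
  have h1 : m0 * ((n + 1) * q) + 1 ≤ (m0 * (n + 1) + 1) * q := by
    nlinarith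
  calc N * (m0 * ((n + 1) * q) + 1) ^ n ≤ N * ((m0 * (n + 1) + 1) * q) ^ n := by gcongr
    _ = (N * (m0 * (n + 1) + 1) ^ n) * q ^ n := by rw [mul_pow]; ring
    _ < q * q ^ n := by
      have : 0 < q ^ n := pow_pos (by omega) n
      exact Nat.mul_lt_mul_of_pos_right (by omega) this
    _ = q ^ (n + 1) := by ring

/-- the monomials -/
def mono {m q : ℕ} (d : ℕ) (v : Fin m → ℂ) (v0 : ℂ) (β : Fin m → Fin q) : ℂ :=
  (∏ i, v i ^ (β i : ℕ)) * v0 ^ (d - ∑ i, (β i : ℕ))

theorem mono_smul {m q d : ℕ} (v : Fin m → ℂ) (v0 t : ℂ) (β : Fin m → Fin q)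
    (hd : ∑ i, (β i : ℕ) ≤ d) :
    mono d (fun i => t * v i) (t * v0) β = t ^ d * mono d v v0 β := by
  unfold mono
  simp only [mul_pow, Finset.prod_mul_distrib, Finset.prod_pow_eq_pow_sum]
  have : t ^ d = t ^ (∑ i, (β i : ℕ)) * t ^ (d - ∑ i, (β i : ℕ)) := by
    rw [← pow_add, Nat.add_sub_cancel' hd]
  rw [this]
  ring

/-- **Siegel's lemma**: on a compact complex manifold of dimension `n`, `n + 1` quotients of
sections of a line bundle are algebraically dependent. -/
theorem siegel [T2Space X] [CompactSpace X]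
    (s : Fin (n + 1) → Chart n X → Cm n → ℂ) (s0 : Chart n X → Cm n → ℂ)
    (hs : ∀ i e x, At e x → AnalyticAt ℂ (s i e) (e x))
    (hs0 : ∀ e x, At e x → AnalyticAt ℂ (s0 e) (e x))
    (t : Chart n X → Chart n X → X → ℂ)
    (ht : ∀ e e' x, At e x → At e' x → ContinuousAt (t e e') x)
    (hst : ∀ i e e' x, At e x → At e' x → s i e (e x) = t e e' x * s i e' (e' x))
    (hst0 : ∀ e e' x, At e x → At e' x → s0 e (e x) = t e e' x * s0 e' (e' x)) :
    ∃ p : MvPolynomial (Fin (n + 1)) ℂ, p ≠ 0 ∧ ∀ e x, At e x → s0 e (e x) ≠ 0 →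
      MvPolynomial.eval (fun i => s i e (e x) / s0 e (e x)) p = 0 := by
  classical
  obtain ⟨T, r, hr, hb, hcov⟩ := exists_cover (n := n) (X := X)
  -- bound for the transition functions
  have hAt : ∀ a : X, ∀ z ∈ (chartAt (Cm n) a).target,
      At (chartAt (Cm n) a : Chart n X) ((chartAt (Cm n) a).symm z) := fun a z hz =>
    ⟨chart_mem_atlas (Cm n) a, (chartAt (Cm n) a).map_target hz⟩
  have hM : ∃ M : ℝ, 1 ≤ M ∧ ∀ a ∈ T, ∀ b ∈ T, ∀ x,
      x ∈ (chartAt (Cm n) a).source → x ∈ (chartAt (Cm n) b).source →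
      chartAt (Cm n) a x ∈ closedBall (chartAt (Cm n) a a) (2 * r a) →
      chartAt (Cm n) b x ∈ closedBall (chartAt (Cm n) b b) (r b) →
      ‖t (chartAt (Cm n) a) (chartAt (Cm n) b) x‖ ≤ M := by
    have h1 : ∀ a b : X, ∃ M : ℝ, 0 ≤ M ∧ ∀ x,
        x ∈ (chartAt (Cm n) a).source → x ∈ (chartAt (Cm n) b).source →
        chartAt (Cm n) a x ∈ closedBall (chartAt (Cm n) a a) (2 * r a) →
        chartAt (Cm n) b x ∈ closedBall (chartAt (Cm n) b b) (r b) →
        ‖t (chartAt (Cm n) a) (chartAt (Cm n) b) x‖ ≤ M := by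
      intro a b
      let K : Set X := (chartAt (Cm n) a).symm '' closedBall (chartAt (Cm n) a a) (2 * r a) ∩
        (chartAt (Cm n) b).symm '' closedBall (chartAt (Cm n) b b) (r b)
      have hb' : closedBall (chartAt (Cm n) b b) (r b) ⊆ (chartAt (Cm n) b).target :=
        (closedBall_subset_closedBall (by linarith [hr b])).trans (hb b)
      have hK1 : IsCompact
          ((chartAt (Cm n) a).symm '' closedBall (chartAt (Cm n) a a) (2 * r a)) :=
        (isCompact_closedBall _ _).image_of_continuousOn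
          ((chartAt (Cm n) a).continuousOn_symm.mono (hb a))
      have hK2 : IsCompact ((chartAt (Cm n) b).symm '' closedBall (chartAt (Cm n) b b) (r b)) :=
        (isCompact_closedBall _ _).image_of_continuousOn
          ((chartAt (Cm n) b).continuousOn_symm.mono hb')
      have hK : IsCompact K := hK1.inter hK2
      have hc : ContinuousOn (t (chartAt (Cm n) a) (chartAt (Cm n) b)) K := by
        rintro x ⟨⟨z, hz, rfl⟩, ⟨w, hw, hwx⟩⟩
        refine (ht _ _ _ (hAt a z (hb a hz)) ?_).continuousWithinAt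
        rw [← hwx]
        exact hAt b w (hb' hw)
      obtain ⟨M, hM⟩ := hK.exists_bound_of_continuousOn hc
      refine ⟨|M|, abs_nonneg _, fun x hxa hxb h1 h2 => (hM x ⟨⟨_, h1, ?_⟩, ⟨_, h2, ?_⟩⟩).trans
        (le_abs_self M)⟩
      · exact (chartAt (Cm n) a).left_inv hxa
      · exact (chartAt (Cm n) b).left_inv hxb
    choose M hM0 hM using h1
    refine ⟨1 + ∑ a ∈ T, ∑ b ∈ T, M a b, ?_, fun a ha b hb x h1 h2 h3 h4 => ?_⟩
    · have : 0 ≤ ∑ a ∈ T, ∑ b ∈ T, M a b :=
        Finset.sum_nonneg fun a _ => Finset.sum_nonneg fun b _ => hM0 a b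
      linarith
    · refine (hM a b x h1 h2 h3 h4).trans ?_
      have h5 : M a b ≤ ∑ b ∈ T, M a b :=
        Finset.single_le_sum (f := fun b => M a b) (fun b _ => hM0 a b) hb
      have h6 : ∑ b ∈ T, M a b ≤ ∑ a ∈ T, ∑ b ∈ T, M a b :=
        Finset.single_le_sum (f := fun a => ∑ b ∈ T, M a b)
          (fun a _ => Finset.sum_nonneg fun b _ => hM0 a b) ha
      linarith
  obtain ⟨M, hM1, hM⟩ := hM
  obtain ⟨m0, hm0⟩ : ∃ m0 : ℕ, M ≤ 2 ^ m0 := by
    obtain ⟨m0, h⟩ := pow_unbounded_of_one_lt M (one_lt_two)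
    exact ⟨m0, h.le⟩
  obtain ⟨q, hq, hqq⟩ := exists_q T.card m0 n
  set d := (n + 1) * q with hd
  set h := m0 * d + 1 with hh
  have hβ : ∀ β : Fin (n + 1) → Fin q, ∑ i, (β i : ℕ) ≤ d := by
    intro β
    calc ∑ i, (β i : ℕ) ≤ ∑ i : Fin (n + 1), q := Finset.sum_le_sum fun i _ => (β i).2.le
      _ = d := by simp [hd]
  -- the linear system
  let mon : (Fin (n + 1) → Fin q) → Chart n X → Cm n → ℂ := fun β e z =>
    mono d (fun i => s i e z) (s0 e z) β
  have hmon : ∀ β e x, At e x → AnalyticAt ℂ (mon β e) (e x) := by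
    intro β e x hx
    refine AnalyticAt.mul ?_ ((hs0 e x hx).pow _)
    exact Finset.analyticAt_fun_prod _ fun i _ => (hs i e x hx).pow _
  let Φ : ((Fin (n + 1) → Fin q) → ℂ) →ₗ[ℂ] (T × (Fin n → Fin h) → ℂ) :=
    Matrix.toLin' (Matrix.of fun (aα : T × (Fin n → Fin h)) (β : Fin (n + 1) → Fin q) =>
      jet aα.2 (chartAt (Cm n) aα.1.1 aα.1.1) (mon β (chartAt (Cm n) aα.1.1)))
  have hΦ : ∃ c : (Fin (n + 1) → Fin q) → ℂ, c ≠ 0 ∧ Φ c = 0 := by
    have h1 : Module.finrank ℂ (T × (Fin n → Fin h) → ℂ) <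
        Module.finrank ℂ ((Fin (n + 1) → Fin q) → ℂ) := by
      simp only [Module.finrank_fintype_fun_eq_card, Fintype.card_prod, Fintype.card_coe,
        Fintype.card_pi_const, Fintype.card_fin]
      exact hqq
    have h2 := LinearMap.ker_ne_bot_of_finrank_lt (f := Φ) h1
    obtain ⟨c, hc, hc0⟩ := (Submodule.ne_bot_iff _).1 h2
    exact ⟨c, hc0, hc⟩
  obtain ⟨c, hc0, hc⟩ := hΦ
  let F : Chart n X → Cm n → ℂ := fun e z => ∑ β, c β * mon β e z
  have hFan : ∀ e x, At e x → AnalyticAt ℂ (F e) (e x) := by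
    intro e x hx
    exact Finset.analyticAt_fun_sum _ fun β _ => analyticAt_const.mul (hmon β e x hx)
  have hFjet : ∀ a ∈ T, ∀ α : Fin n → Fin h,
      jet α (chartAt (Cm n) a a) (F (chartAt (Cm n) a)) = 0 := by
    intro a ha α
    have h1 := congrFun hc (⟨a, ha⟩, α)
    have h2 := jet_sum α (chartAt (Cm n) a a) Finset.univ c
      (fun β => mon β (chartAt (Cm n) a)) (fun β _ => hmon β _ _ ⟨chart_mem_atlas (Cm n) a,
        mem_chart_source (Cm n) a⟩)
    refine h2.trans ?_
    simp only [Φ, Matrix.toLin'_apply, Matrix.mulVec, dotProduct, Matrix.of_apply,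
      Pi.zero_apply] at h1
    rw [← h1]
    exact Finset.sum_congr rfl fun β _ => mul_comm _ _
  have hFch : ∀ e e' x, At e x → At e' x → F e (e x) = t e e' x ^ d * F e' (e' x) := by
    intro e e' x hx hx'
    simp only [F, Finset.mul_sum]
    refine Finset.sum_congr rfl fun β _ => ?_
    simp only [mon]
    rw [show (fun i => s i e (e x)) = fun i => t e e' x * s i e' (e' x) from
      funext fun i => hst i e e' x hx hx', hst0 e e' x hx hx', mono_smul _ _ _ _ (hβ β)]
    ring
  have hFb : ∀ a, AnalyticOnNhd ℂ (F (chartAt (Cm n) a)) (chartAt (Cm n) a).target := by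
    intro a z hz
    have := hFan _ _ (hAt a z hz)
    rwa [(chartAt (Cm n) a).right_inv hz] at this
  -- one step
  have hstep : ∀ B : ℝ, (∀ a ∈ T, ∀ z ∈ ball (chartAt (Cm n) a a) (r a),
      ‖F (chartAt (Cm n) a) z‖ ≤ B) →
      ∀ a ∈ T, ∀ z ∈ ball (chartAt (Cm n) a a) (r a), ‖F (chartAt (Cm n) a) z‖ ≤ B / 2 := by
    intro B hB a ha
    have hB0 : 0 ≤ B := (norm_nonneg _).trans (hB a ha _ (mem_ball_self (hr a)))
    have h1 : ∀ z ∈ ball (chartAt (Cm n) a a) (2 * r a),
        ‖F (chartAt (Cm n) a) z‖ ≤ M ^ d * B := by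
      intro z hz
      have hzt : z ∈ (chartAt (Cm n) a).target := hb a (ball_subset_closedBall hz)
      obtain ⟨b, hbT, hxb, hxb'⟩ := hcov ((chartAt (Cm n) a).symm z)
      have h2 := hFch _ (chartAt (Cm n) b) _ (hAt a z hzt) ⟨chart_mem_atlas (Cm n) b, hxb⟩
      rw [(chartAt (Cm n) a).right_inv hzt] at h2
      rw [h2, norm_mul, norm_pow]
      have h3 : ‖t (chartAt (Cm n) a) (chartAt (Cm n) b) ((chartAt (Cm n) a).symm z)‖ ≤ M := by
        refine hM a ha b hbT _ ((chartAt (Cm n) a).map_target hzt) hxb ?_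
          (ball_subset_closedBall hxb')
        rw [(chartAt (Cm n) a).right_inv hzt]
        exact ball_subset_closedBall hz
      have h4 := hB b hbT _ hxb'
      gcongr
    intro z hz
    have h2 := norm_le_of_iteratedFDeriv (h := h) (c := chartAt (Cm n) a a) (R := 2 * r a)
      (M := M ^ d * B) (f := F (chartAt (Cm n) a))
      (fun w hw => hFb a w (hb a (ball_subset_closedBall hw))) h1
      (iteratedFDeriv_eq_zero_of_jet (hFb a _ (mem_chart_target (Cm n) a)) (hFjet a ha)) z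
      (ball_subset_ball (by linarith [hr a]) hz)
    refine h2.trans ?_
    have h3 : dist z (chartAt (Cm n) a a) / (2 * r a) ≤ 1 / 2 := by
      rw [div_le_iff₀ (by linarith [hr a])]
      have := (mem_ball.1 hz).le
      linarith
    have h4 : (dist z (chartAt (Cm n) a a) / (2 * r a)) ^ h ≤ (1 / 2) ^ h :=
      pow_le_pow_left₀ (by have := hr a; positivity) h3 _
    have h5 : 0 ≤ (dist z (chartAt (Cm n) a a) / (2 * r a)) ^ h := by
      have := hr a
      positivity
    calc M ^ d * B * (dist z (chartAt (Cm n) a a) / (2 * r a)) ^ h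
        ≤ (2 ^ m0) ^ d * B * (1 / 2) ^ h := by gcongr
      _ = B / 2 := by
        rw [hh, ← pow_mul, one_div, inv_pow, pow_succ]
        field_simp
  -- F = 0
  have hF0 : ∀ a ∈ T, ∀ z ∈ ball (chartAt (Cm n) a a) (r a), F (chartAt (Cm n) a) z = 0 := by
    have h1 : ∃ B : ℝ, ∀ a ∈ T, ∀ z ∈ ball (chartAt (Cm n) a a) (r a),
        ‖F (chartAt (Cm n) a) z‖ ≤ B := by
      have h2 : ∀ a : X, ∃ B : ℝ, 0 ≤ B ∧ ∀ z ∈ ball (chartAt (Cm n) a a) (r a),
          ‖F (chartAt (Cm n) a) z‖ ≤ B := by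
        intro a
        have h3 : ContinuousOn (F (chartAt (Cm n) a))
            (closedBall (chartAt (Cm n) a a) (2 * r a)) := fun z hz =>
          ((hFb a z (hb a hz)).continuousAt).continuousWithinAt
        obtain ⟨B, hB⟩ := (isCompact_closedBall _ _).exists_bound_of_continuousOn h3
        refine ⟨|B|, abs_nonneg _, fun z hz => (hB z ?_).trans (le_abs_self B)⟩
        exact closedBall_subset_closedBall (by linarith [hr a]) (ball_subset_closedBall hz)
      choose B hB0 hB using h2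
      refine ⟨∑ a ∈ T, B a, fun a ha z hz => (hB a z hz).trans ?_⟩
      exact Finset.single_le_sum (f := B) (fun a _ => hB0 a) ha
    obtain ⟨B, hB⟩ := h1
    have h2 : ∀ k : ℕ, ∀ a ∈ T, ∀ z ∈ ball (chartAt (Cm n) a a) (r a),
        ‖F (chartAt (Cm n) a) z‖ ≤ B / 2 ^ k := by
      intro k
      induction k with
      | zero => simpa using hB
      | succ k ih =>
        have := hstep _ ih
        intro a ha z hz
        refine (this a ha z hz).trans (le_of_eq ?_)
        rw [pow_succ]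
        field_simp
    intro a ha z hz
    have h3 : Tendsto (fun k : ℕ => B / 2 ^ k) atTop (𝓝 0) := by
      have := (tendsto_pow_atTop_nhds_zero_of_lt_one (r := (1 / 2 : ℝ)) (by norm_num)
        (by norm_num)).const_mul B
      simpa [div_eq_mul_inv] using this
    have h4 := ge_of_tendsto' h3 fun k => h2 k a ha z hz
    exact norm_le_zero_iff.1 h4
  -- conclusion
  let p : MvPolynomial (Fin (n + 1)) ℂ := ∑ β : Fin (n + 1) → Fin q,
    MvPolynomial.monomial (Finsupp.equivFunOnFinite.symm fun i => (β i : ℕ)) (c β)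
  refine ⟨p, ?_, fun e x hx h0 => ?_⟩
  · obtain ⟨β, hβ0⟩ := Function.ne_iff.1 hc0
    intro hp
    apply hβ0
    have h1 := congrArg (MvPolynomial.coeff (Finsupp.equivFunOnFinite.symm fun i => (β i : ℕ))) hp
    rw [MvPolynomial.coeff_zero] at h1
    rw [Pi.zero_apply, ← h1]
    simp only [p, MvPolynomial.coeff_sum, MvPolynomial.coeff_monomial]
    rw [Finset.sum_eq_single β]
    · simp
    · intro γ _ hγ
      rw [if_neg]
      intro h2
      apply hγ
      have h3 := Finsupp.equivFunOnFinite.symm.injective h2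
      funext i
      exact Fin.ext (congrFun h3 i)
    · intro h2
      exact absurd (Finset.mem_univ _) h2
  · obtain ⟨a, ha, hxa, hxa'⟩ := hcov x
    have h1 := hFch e _ x hx ⟨chart_mem_atlas (Cm n) a, hxa⟩
    rw [hF0 a ha _ hxa', mul_zero] at h1
    have h2 : (s0 e (e x)) ^ d ≠ 0 := pow_ne_zero _ h0
    refine (mul_eq_zero.1 ?_).resolve_right h2
    rw [← h1]
    simp only [p, F, map_sum, MvPolynomial.eval_monomial, Finset.sum_mul]
    refine Finset.sum_congr rfl fun β _ => ?_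
    simp only [mon, mono]
    rw [mul_assoc]
    congr 1
    rw [Finsupp.prod_fintype _ _ (fun i => by simp)]
    simp only [Finsupp.equivFunOnFinite_symm_apply_apply, div_pow]
    rw [Finset.prod_div_distrib, Finset.prod_pow_eq_pow_sum, div_mul_eq_mul_div, mul_div_assoc]
    congr 1
    rw [div_eq_iff (pow_ne_zero _ h0), ← pow_add, Nat.sub_add_cancel (hβ β)]

end Vale.Agent.P299.H908
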