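import Vale.Agent.P299.H908.Siegel
import Vale.Agent.P299.H908.Proj

/-!
# P299 / H908: Siegel's lemma for the affine coordinates of a projective embedding
-/

set_option linter.all false

open Metric Filter Topology Asymptotics Set
open Vale.Agent.P272.K
open scoped Manifold ContDiff

noncomputable section

namespace Vale.Agent.P299.H908

theorem siegel_core {n : ℕ} {T : Type*} [Fintype T] (c : T → Cm n) (r : T → ℝ)
    (hr : ∀ a, 0 < r a) (v : T → Cm n → Fin (n + 1) → ℂ) (v0 : T → Cm n → ℂ)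
    (hv : ∀ a, ∀ z ∈ closedBall (c a) (2 * r a), ∀ i, AnalyticAt ℂ (fun z => v a z i) z)
    (hv0 : ∀ a, ∀ z ∈ closedBall (c a) (2 * r a), AnalyticAt ℂ (v0 a) z)
    (M : ℝ) (hM1 : 1 ≤ M)
    (hM : ∀ a, ∀ z ∈ closedBall (c a) (2 * r a), ∃ b, ∃ w ∈ ball (c b) (r b), ∃ t : ℂ, ‖t‖ ≤ M ∧
      (∀ i, v a z i = t * v b w i) ∧ v0 a z = t * v0 b w) :
    ∃ p : MvPolynomial (Fin (n + 1)) ℂ, p ≠ 0 ∧ ∀ a, ∀ z ∈ ball (c a) (r a), v0 a z ≠ 0 →
      MvPolynomial.eval (fun i => v a z i / v0 a z) p = 0 := by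
  classical
  obtain ⟨m0, hm0⟩ : ∃ m0 : ℕ, M ≤ 2 ^ m0 := by
    obtain ⟨m0, h⟩ := pow_unbounded_of_one_lt M (one_lt_two)
    exact ⟨m0, h.le⟩
  obtain ⟨q, hq, hqq⟩ := exists_q (Fintype.card T) m0 n
  set d := (n + 1) * q with hd
  set h := m0 * d + 1 with hh
  have hβ : ∀ β : Fin (n + 1) → Fin q, ∑ i, (β i : ℕ) ≤ d := by
    intro β
    calc ∑ i, (β i : ℕ) ≤ ∑ i : Fin (n + 1), q := Finset.sum_le_sum fun i _ => (β i).2.le
      _ = d := by simp [hd]
  let mon : (Fin (n + 1) → Fin q) → T → Cm n → ℂ := fun β a z => mono d (v a z) (v0 a z) β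
  have hmon : ∀ β a, ∀ z ∈ closedBall (c a) (2 * r a), AnalyticAt ℂ (mon β a) z := by
    intro β a z hz
    refine AnalyticAt.mul ?_ ((hv0 a z hz).pow _)
    exact Finset.analyticAt_fun_prod _ fun i _ => (hv a z hz i).pow _
  have hcc : ∀ a, c a ∈ closedBall (c a) (2 * r a) := fun a =>
    mem_closedBall_self (by linarith [hr a])
  let Φ : ((Fin (n + 1) → Fin q) → ℂ) →ₗ[ℂ] (T × (Fin n → Fin h) → ℂ) :=
    Matrix.toLin' (Matrix.of fun (aα : T × (Fin n → Fin h)) (β : Fin (n + 1) → Fin q) =>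
      jet aα.2 (c aα.1) (mon β aα.1))
  have hΦ : ∃ k : (Fin (n + 1) → Fin q) → ℂ, k ≠ 0 ∧ Φ k = 0 := by
    have h1 : Module.finrank ℂ (T × (Fin n → Fin h) → ℂ) <
        Module.finrank ℂ ((Fin (n + 1) → Fin q) → ℂ) := by
      simp only [Module.finrank_fintype_fun_eq_card, Fintype.card_prod,
        Fintype.card_pi_const, Fintype.card_fin]
      exact hqq
    have h2 := LinearMap.ker_ne_bot_of_finrank_lt (f := Φ) h1
    obtain ⟨k, hk, hk0⟩ := (Submodule.ne_bot_iff _).1 h2
    exact ⟨k, hk0, hk⟩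
  obtain ⟨k, hk0, hk⟩ := hΦ
  let F : T → Cm n → ℂ := fun a z => ∑ β, k β * mon β a z
  have hFan : ∀ a, ∀ z ∈ closedBall (c a) (2 * r a), AnalyticAt ℂ (F a) z := by
    intro a z hz
    exact Finset.analyticAt_fun_sum _ fun β _ => analyticAt_const.mul (hmon β a z hz)
  have hFjet : ∀ a, ∀ α : Fin n → Fin h, jet α (c a) (F a) = 0 := by
    intro a α
    have h1 := congrFun hk (a, α)
    have h2 := jet_sum α (c a) Finset.univ k (fun β => mon β a)
      (fun β _ => hmon β _ _ (hcc a))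
    refine h2.trans ?_
    simp only [Φ, Matrix.toLin'_apply, Matrix.mulVec, dotProduct, Matrix.of_apply,
      Pi.zero_apply] at h1
    rw [← h1]
    exact Finset.sum_congr rfl fun β _ => mul_comm _ _
  have hstep : ∀ B : ℝ, (∀ a, ∀ z ∈ ball (c a) (r a), ‖F a z‖ ≤ B) →
      ∀ a, ∀ z ∈ ball (c a) (r a), ‖F a z‖ ≤ B / 2 := by
    intro B hB a
    have hB0 : 0 ≤ B := (norm_nonneg _).trans (hB a _ (mem_ball_self (hr a)))
    have h1 : ∀ z ∈ ball (c a) (2 * r a), ‖F a z‖ ≤ M ^ d * B := by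
      intro z hz
      obtain ⟨b, w, hw, t, ht, hvt, hv0t⟩ := hM a z (ball_subset_closedBall hz)
      have h2 : F a z = t ^ d * F b w := by
        simp only [F, Finset.mul_sum]
        refine Finset.sum_congr rfl fun β _ => ?_
        simp only [mon]
        rw [show v a z = fun i => t * v b w i from funext hvt, hv0t, mono_smul _ _ _ _ (hβ β)]
        ring
      rw [h2, norm_mul, norm_pow]
      have h4 := hB b w hw
      gcongr
    intro z hz
    have h2 := norm_le_of_iteratedFDeriv (h := h) (c := c a) (R := 2 * r a)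
      (M := M ^ d * B) (f := F a)
      (fun w hw => hFan a w (ball_subset_closedBall hw)) h1
      (iteratedFDeriv_eq_zero_of_jet (hFan a _ (hcc a)) (hFjet a)) z
      (ball_subset_ball (by linarith [hr a]) hz)
    refine h2.trans ?_
    have h3 : dist z (c a) / (2 * r a) ≤ 1 / 2 := by
      rw [div_le_iff₀ (by linarith [hr a])]
      have := (mem_ball.1 hz).le
      linarith
    have h4 : (dist z (c a) / (2 * r a)) ^ h ≤ (1 / 2) ^ h :=
      pow_le_pow_left₀ (by have := hr a; positivity) h3 _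
    have h5 : 0 ≤ (dist z (c a) / (2 * r a)) ^ h := by
      have := hr a
      positivity
    calc M ^ d * B * (dist z (c a) / (2 * r a)) ^ h
        ≤ (2 ^ m0) ^ d * B * (1 / 2) ^ h := by gcongr
      _ = B / 2 := by
        rw [hh, ← pow_mul, one_div, inv_pow, pow_succ]
        field_simp
  have hF0 : ∀ a, ∀ z ∈ ball (c a) (r a), F a z = 0 := by
    have h1 : ∃ B : ℝ, ∀ a, ∀ z ∈ ball (c a) (r a), ‖F a z‖ ≤ B := by
      have h2 : ∀ a : T, ∃ B : ℝ, 0 ≤ B ∧ ∀ z ∈ ball (c a) (r a), ‖F a z‖ ≤ B := by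
        intro a
        have h3 : ContinuousOn (F a) (closedBall (c a) (2 * r a)) := fun z hz =>
          ((hFan a z hz).continuousAt).continuousWithinAt
        obtain ⟨B, hB⟩ := (isCompact_closedBall _ _).exists_bound_of_continuousOn h3
        refine ⟨|B|, abs_nonneg _, fun z hz => (hB z ?_).trans (le_abs_self B)⟩
        exact closedBall_subset_closedBall (by linarith [hr a]) (ball_subset_closedBall hz)
      choose B hB0 hB using h2
      refine ⟨∑ a, B a, fun a z hz => (hB a z hz).trans ?_⟩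
      exact Finset.single_le_sum (f := B) (fun a _ => hB0 a) (Finset.mem_univ a)
    obtain ⟨B, hB⟩ := h1
    have h2 : ∀ k : ℕ, ∀ a, ∀ z ∈ ball (c a) (r a), ‖F a z‖ ≤ B / 2 ^ k := by
      intro k
      induction k with
      | zero => simpa using hB
      | succ k ih =>
        have := hstep _ ih
        intro a z hz
        refine (this a z hz).trans (le_of_eq ?_)
        rw [pow_succ]
        field_simp
    intro a z hz
    have h3 : Tendsto (fun k : ℕ => B / 2 ^ k) atTop (𝓝 0) := by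
      have := (tendsto_pow_atTop_nhds_zero_of_lt_one (r := (1 / 2 : ℝ)) (by norm_num)
        (by norm_num)).const_mul B
      simpa [div_eq_mul_inv] using this
    have h4 := ge_of_tendsto' h3 fun k => h2 k a z hz
    exact norm_le_zero_iff.1 h4
  let p : MvPolynomial (Fin (n + 1)) ℂ := ∑ β : Fin (n + 1) → Fin q,
    MvPolynomial.monomial (Finsupp.equivFunOnFinite.symm fun i => (β i : ℕ)) (k β)
  refine ⟨p, ?_, fun a z hz h0 => ?_⟩
  · obtain ⟨β, hβ0⟩ := Function.ne_iff.1 hk0
    intro hp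
    apply hβ0
    have h1 := congrArg (MvPolynomial.coeff (Finsupp.equivFunOnFinite.symm fun i => (β i : ℕ))) hp
    rw [MvPolynomial.coeff_zero] at h1
    rw [Pi.zero_apply, ← h1]
    simp only [p, MvPolynomial.coeff_sum, MvPolynomial.coeff_monomial]
    rw [Finset.sum_eq_single β]
    · simp
    · intro γ _ hγ
      rw [if_neg]
      intro h2
      apply hγ
      have h3 := Finsupp.equivFunOnFinite.symm.injective h2
      funext i
      exact Fin.ext (congrFun h3 i)
    · intro h2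
      exact absurd (Finset.mem_univ _) h2
  · have h1 := hF0 a z hz
    have h2 : (v0 a z) ^ d ≠ 0 := pow_ne_zero _ h0
    refine (mul_eq_zero.1 ?_).resolve_right h2
    rw [← h1]
    simp only [p, F, map_sum, MvPolynomial.eval_monomial, Finset.sum_mul]
    refine Finset.sum_congr rfl fun β _ => ?_
    simp only [mon, mono]
    rw [mul_assoc]
    congr 1
    rw [Finsupp.prod_fintype _ _ (fun i => by simp)]
    simp only [Finsupp.equivFunOnFinite_symm_apply_apply, div_pow]
    rw [Finset.prod_div_distrib, Finset.prod_pow_eq_pow_sum, div_mul_eq_mul_div, mul_div_assoc]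
    congr 1
    rw [div_eq_iff (pow_ne_zero _ h0), ← pow_add, Nat.sub_add_cancel (hβ β)]

namespace ProjData

variable {n : ℕ} {X : Type} [TopologicalSpace X] [ChartedSpace (Cm n) X] (D : ProjData n X)

/-- any `n + 1` affine coordinates are algebraically dependent -/
theorem siegel [CompactSpace X] (a : Fin (n + 1) → Fin (D.N + 1)) :
    ∃ p : MvPolynomial (Fin (n + 1)) ℂ, p ≠ 0 ∧ ∀ x ∈ D.Aff,
      MvPolynomial.eval (fun i => D.xi (a i) x) p = 0 := by
  classical
  have h1 : ∀ x : X, ∃ (W : Set X) (s : X → Fin (D.N + 1) → ℂ) (r : ℝ), 0 < r ∧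
      closedBall (chartAt (Cm n) x x) (2 * r) ⊆ (chartAt (Cm n) x).target ∧
      (∀ z ∈ closedBall (chartAt (Cm n) x x) (2 * r), (chartAt (Cm n) x).symm z ∈ W) ∧
      (∀ y ∈ W, ∀ i, HolAt n (fun y => s y i) y) ∧ ∀ y ∈ W, ∃ c : ℂ, c ≠ 0 ∧ s y = c • D.Z y := by
    intro x
    obtain ⟨W, s, hW, hs, hsZ⟩ := D.loc x
    have hx := at_chartAt' (n := n) x
    have h2 : (chartAt (Cm n) x).symm ⁻¹' W ∈ 𝓝 (chartAt (Cm n) x x) := by
      refine ((chartAt (Cm n) x).continuousAt_symm hx.mem_target) ?_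
      rwa [hx.left_inv]
    obtain ⟨ρ, hρ, hb⟩ := Metric.mem_nhds_iff.1 (Filter.inter_mem h2
      ((chartAt (Cm n) x).open_target.mem_nhds hx.mem_target))
    have h3 : closedBall (chartAt (Cm n) x x) (2 * (ρ / 4)) ⊆ ball (chartAt (Cm n) x x) ρ :=
      closedBall_subset_ball (by linarith)
    exact ⟨W, s, ρ / 4, by positivity, fun z hz => (hb (h3 hz)).2, fun z hz => (hb (h3 hz)).1,
      hs, hsZ⟩
  choose W s r hr hb hbW hs hsZ using h1
  let V : X → Set X := fun a => (chartAt (Cm n) a).source ∩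
    chartAt (Cm n) a ⁻¹' ball (chartAt (Cm n) a a) (r a)
  have hV : ∀ a ∈ (Set.univ : Set X), V a ∈ 𝓝 a := by
    intro a _
    have h2 : IsOpen (V a) := (chartAt (Cm n) a).isOpen_inter_preimage isOpen_ball
    exact h2.mem_nhds ⟨mem_chart_source (Cm n) a, mem_ball_self (hr a)⟩
  obtain ⟨T, -, hT⟩ := (isCompact_univ (X := X)).elim_nhds_subcover V hV
  have hcov : ∀ x, ∃ a ∈ T, x ∈ V a := by
    intro x
    have := hT (Set.mem_univ x)
    simp only [Set.mem_iUnion] at this
    obtain ⟨a, ha, hx⟩ := this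
    exact ⟨a, ha, hx⟩
  have hsan : ∀ x, ∀ z ∈ closedBall (chartAt (Cm n) x x) (2 * r x), ∀ i,
      AnalyticAt ℂ (fun z => s x ((chartAt (Cm n) x).symm z) i) z := by
    intro x z hz i
    have h2 : At (chartAt (Cm n) x : Chart n X) ((chartAt (Cm n) x).symm z) :=
      ⟨chart_mem_atlas (Cm n) x, (chartAt (Cm n) x).map_target (hb x hz)⟩
    have h3 := hs x _ (hbW x z hz) i _ h2
    rwa [(chartAt (Cm n) x).right_inv (hb x hz)] at h3
  have hscont : ∀ x, ContinuousOn (fun z => s x ((chartAt (Cm n) x).symm z))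
      (closedBall (chartAt (Cm n) x x) (2 * r x)) := fun x => by
    rw [continuousOn_pi]
    exact fun i z hz => (hsan x z hz i).continuousAt.continuousWithinAt
  have hne : ∀ x, ∀ y ∈ W x, s x y ≠ 0 := by
    intro x y hy
    obtain ⟨c, hc, hcy⟩ := hsZ x y hy
    rw [hcy]
    exact smul_ne_zero hc (D.ne y)
  -- bounds
  have hup : ∀ x : X, ∃ B : ℝ, 0 ≤ B ∧ ∀ z ∈ closedBall (chartAt (Cm n) x x) (2 * r x),
      ‖s x ((chartAt (Cm n) x).symm z)‖ ≤ B := by
    intro x
    obtain ⟨B, hB⟩ := (isCompact_closedBall _ _).exists_bound_of_continuousOn (hscont x)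
    exact ⟨|B|, abs_nonneg _, fun z hz => (hB z hz).trans (le_abs_self B)⟩
  have hlo : ∀ x : X, ∃ b : ℝ, 0 < b ∧ ∀ z ∈ closedBall (chartAt (Cm n) x x) (2 * r x),
      b ≤ ‖s x ((chartAt (Cm n) x).symm z)‖ := by
    intro x
    obtain ⟨z0, hz0, hmin⟩ := (isCompact_closedBall (chartAt (Cm n) x x)
      (2 * r x)).exists_isMinOn ⟨_, mem_closedBall_self (by linarith [hr x])⟩ (hscont x).norm
    refine ⟨‖s x ((chartAt (Cm n) x).symm z0)‖, norm_pos_iff.2 (hne x _ (hbW x z0 hz0)),
      fun z hz => hmin hz⟩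
  choose B hB0 hB using hup
  choose b hb0 hbl using hlo
  let M : ℝ := 1 + ∑ x ∈ T, ∑ y ∈ T, B x / b y
  have hM1 : 1 ≤ M := by
    have : 0 ≤ ∑ x ∈ T, ∑ y ∈ T, B x / b y :=
      Finset.sum_nonneg fun x _ => Finset.sum_nonneg fun y _ => div_nonneg (hB0 x) (hb0 y).le
    simp only [M]
    linarith
  obtain ⟨p, hp0, hp⟩ := siegel_core (T := T) (fun x => chartAt (Cm n) x.1 x.1)
    (fun x => r x.1) (fun x => hr x.1)
    (fun x z i => s x.1 ((chartAt (Cm n) x.1).symm z) (a i))
    (fun x z => s x.1 ((chartAt (Cm n) x.1).symm z) D.j0)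
    (fun x z hz i => hsan x.1 z hz (a i)) (fun x z hz => hsan x.1 z hz D.j0) M hM1 (by
      rintro ⟨x, hx⟩ z hz
      obtain ⟨y, hyT, hys, hyb⟩ := hcov ((chartAt (Cm n) x).symm z)
      refine ⟨⟨y, hyT⟩, _, hyb, ?_⟩
      have h2 : chartAt (Cm n) y ((chartAt (Cm n) x).symm z) ∈
          closedBall (chartAt (Cm n) y y) (2 * r y) :=
        closedBall_subset_closedBall (by linarith [hr y]) (ball_subset_closedBall hyb)
      have h3 := hbW y _ h2
      have h3' := hbl y _ h2
      rw [(chartAt (Cm n) y).left_inv hys] at h3 h3'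
      obtain ⟨c, hc, hcx⟩ := hsZ x _ (hbW x z hz)
      obtain ⟨c', hc', hcy⟩ := hsZ y _ h3
      have h4 : s x ((chartAt (Cm n) x).symm z) = (c / c') • s y ((chartAt (Cm n) x).symm z) := by
        rw [hcx, hcy, smul_smul, div_mul_cancel₀ _ hc']
      refine ⟨c / c', ?_, fun i => ?_, ?_⟩
      · have h5 : ‖c / c'‖ * ‖s y ((chartAt (Cm n) x).symm z)‖ ≤ B x := by
          rw [← norm_smul, ← h4]
          exact hB x z hz
        have h6 : ‖c / c'‖ ≤ B x / b y := by
          rw [le_div_iff₀ (hb0 y)]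
          exact (mul_le_mul_of_nonneg_left h3' (norm_nonneg _)).trans h5
        refine h6.trans ?_
        have h7 : B x / b y ≤ ∑ y ∈ T, B x / b y :=
          Finset.single_le_sum (f := fun y => B x / b y)
            (fun y _ => div_nonneg (hB0 x) (hb0 y).le) hyT
        have h8 : ∑ y ∈ T, B x / b y ≤ ∑ x ∈ T, ∑ y ∈ T, B x / b y :=
          Finset.single_le_sum (f := fun x => ∑ y ∈ T, B x / b y)
            (fun x _ => Finset.sum_nonneg fun y _ => div_nonneg (hB0 x) (hb0 y).le) hx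
        simp only [M]
        linarith
      · show s x ((chartAt (Cm n) x).symm z) (a i) = c / c' *
          s y ((chartAt (Cm n) y).symm (chartAt (Cm n) y ((chartAt (Cm n) x).symm z))) (a i)
        rw [(chartAt (Cm n) y).left_inv hys, h4]
        rfl
      · show s x ((chartAt (Cm n) x).symm z) D.j0 = c / c' *
          s y ((chartAt (Cm n) y).symm (chartAt (Cm n) y ((chartAt (Cm n) x).symm z))) D.j0
        rw [(chartAt (Cm n) y).left_inv hys, h4]
        rfl)
  refine ⟨p, hp0, fun x hx => ?_⟩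
  obtain ⟨y, hyT, hys, hyb⟩ := hcov x
  have h2 : chartAt (Cm n) y x ∈ closedBall (chartAt (Cm n) y y) (2 * r y) :=
    closedBall_subset_closedBall (by linarith [hr y]) (ball_subset_closedBall hyb)
  have h3 := hbW y _ h2
  rw [(chartAt (Cm n) y).left_inv hys] at h3
  obtain ⟨c, hc, hcx⟩ := hsZ y x h3
  have h4 := hp ⟨y, hyT⟩ _ hyb
  simp only [(chartAt (Cm n) y).left_inv hys] at h4
  have h5 : s y x D.j0 ≠ 0 := by
    rw [hcx]
    exact mul_ne_zero hc hx
  have h6 := h4 h5
  have h7 : (fun i => D.xi (a i) x) = fun i => s y x (a i) / s y x D.j0 := by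
    funext i
    rw [hcx]
    simp only [xi, Pi.smul_apply, smul_eq_mul]
    rw [mul_div_mul_left _ _ hc]
  rw [h7]
  exact h6

end ProjData

end Vale.Agent.P299.H908
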