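import Vale.Agent.P299.H908.Fin

/-!
# P299 / H908: values of rational functions
-/

set_option linter.all false

open Metric Filter Topology Set
open Vale.Agent.P272.K
open scoped Manifold ContDiff Cardinal

noncomputable section

namespace Vale.Agent.P299.H908

namespace ProjData

variable {n : ℕ} {X : Type} [TopologicalSpace X] [ChartedSpace (Cm n) X] (D : ProjData n X)

lemma ext_add (f g : D.R) (x : X) : D.ext (f + g) x = D.ext f x + D.ext g x := by
  by_cases hx : x ∈ D.Aff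
  · simp [D.ext_of_mem _ hx]
  · simp [ext, hx]

lemma ext_algebraMap (c : ℂ) {x : X} (hx : x ∈ D.Aff) : D.ext (algebraMap ℂ D.R c) x = c := by
  rw [D.ext_of_mem _ hx]
  rfl

lemma ext_one {x : X} (hx : x ∈ D.Aff) : D.ext 1 x = 1 := by
  rw [D.ext_of_mem _ hx]
  rfl

lemma ext_zero (x : X) : D.ext 0 x = 0 := by
  by_cases hx : x ∈ D.Aff
  · rw [D.ext_of_mem _ hx]
    rfl
  · simp [ext, hx]

lemma ext_xiR (i : Fin (D.N + 1)) {x : X} (hx : x ∈ D.Aff) : D.ext (D.xiR i) x = D.xi i x := by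
  rw [D.ext_of_mem _ hx]
  rfl

variable [PreconnectedSpace X]

/-- `a` is regular at `x`. -/
def RegAt (a : D.K) (x : X) : Prop :=
  x ∈ D.Aff ∧ ∃ f g : D.R, D.ext g x ≠ 0 ∧ a * algebraMap D.R D.K g = algebraMap D.R D.K f

open Classical in
/-- the value of `a` at `x` -/
def val (a : D.K) (x : X) : ℂ :=
  if h : D.RegAt a x then D.ext h.2.choose x / D.ext h.2.choose_spec.choose x else 0

variable {D}

lemma val_eq {a : D.K} {x : X} (hx : x ∈ D.Aff) {f g : D.R} (hg : D.ext g x ≠ 0)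
    (h : a * algebraMap D.R D.K g = algebraMap D.R D.K f) :
    D.val a x = D.ext f x / D.ext g x := by
  have hr : D.RegAt a x := ⟨hx, f, g, hg, h⟩
  have h1 : D.val a x = D.ext hr.2.choose x / D.ext hr.2.choose_spec.choose x := by
    unfold val
    rw [dif_pos hr]
  have h2 := hr.2.choose_spec.choose_spec
  rw [h1]
  set f' := hr.2.choose
  set g' := hr.2.choose_spec.choose
  rw [div_eq_div_iff h2.1 hg, ← D.ext_mul, ← D.ext_mul]
  congr 1
  apply IsFractionRing.injective D.R D.K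
  rw [map_mul, map_mul, ← h, ← h2.2]
  ring

lemma RegAt.aff {a : D.K} {x : X} (h : D.RegAt a x) : x ∈ D.Aff := h.1

lemma regAt_algebraMap (f : D.R) {x : X} (hx : x ∈ D.Aff) : D.RegAt (algebraMap D.R D.K f) x :=
  ⟨hx, f, 1, by rw [D.ext_one hx]; exact one_ne_zero, by rw [map_one, mul_one]⟩

lemma val_algebraMap (f : D.R) {x : X} (hx : x ∈ D.Aff) :
    D.val (algebraMap D.R D.K f) x = D.ext f x := by
  rw [val_eq hx (f := f) (g := 1) (by rw [D.ext_one hx]; exact one_ne_zero)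
    (by rw [map_one, mul_one]), D.ext_one hx, div_one]

lemma regAt_const (c : ℂ) {x : X} (hx : x ∈ D.Aff) : D.RegAt (algebraMap ℂ D.K c) x := by
  rw [IsScalarTower.algebraMap_apply ℂ D.R D.K]
  exact regAt_algebraMap _ hx

lemma val_const (c : ℂ) {x : X} (hx : x ∈ D.Aff) : D.val (algebraMap ℂ D.K c) x = c := by
  rw [IsScalarTower.algebraMap_apply ℂ D.R D.K, val_algebraMap _ hx, D.ext_algebraMap c hx]

lemma regAt_one {x : X} (hx : x ∈ D.Aff) : D.RegAt 1 x := by
  have := regAt_const (D := D) 1 hx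
  rwa [map_one] at this

lemma val_one {x : X} (hx : x ∈ D.Aff) : D.val 1 x = 1 := by
  have := val_const (D := D) 1 hx
  rwa [map_one] at this

lemma regAt_zero {x : X} (hx : x ∈ D.Aff) : D.RegAt 0 x := by
  have := regAt_const (D := D) 0 hx
  rwa [map_zero] at this

lemma val_zero {x : X} (hx : x ∈ D.Aff) : D.val 0 x = 0 := by
  have := val_const (D := D) 0 hx
  rwa [map_zero] at this

lemma RegAt.add {a b : D.K} {x : X} (ha : D.RegAt a x) (hb : D.RegAt b x) :
    D.RegAt (a + b) x ∧ D.val (a + b) x = D.val a x + D.val b x := by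
  obtain ⟨hx, f, g, hg, h⟩ := ha
  obtain ⟨-, f', g', hg', h'⟩ := hb
  have h0 : D.ext (g * g') x ≠ 0 := by
    rw [D.ext_mul]
    exact mul_ne_zero hg hg'
  have h1 : (a + b) * algebraMap D.R D.K (g * g') = algebraMap D.R D.K (f * g' + f' * g) := by
    rw [map_mul, map_add, map_mul, map_mul, ← h, ← h']
    ring
  refine ⟨⟨hx, _, _, h0, h1⟩, ?_⟩
  rw [val_eq hx h0 h1, val_eq hx hg h, val_eq hx hg' h', D.ext_add, D.ext_mul, D.ext_mul,
    D.ext_mul]
  field_simp

lemma RegAt.mul {a b : D.K} {x : X} (ha : D.RegAt a x) (hb : D.RegAt b x) :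
    D.RegAt (a * b) x ∧ D.val (a * b) x = D.val a x * D.val b x := by
  obtain ⟨hx, f, g, hg, h⟩ := ha
  obtain ⟨-, f', g', hg', h'⟩ := hb
  have h0 : D.ext (g * g') x ≠ 0 := by
    rw [D.ext_mul]
    exact mul_ne_zero hg hg'
  have h1 : (a * b) * algebraMap D.R D.K (g * g') = algebraMap D.R D.K (f * f') := by
    rw [map_mul, map_mul, ← h, ← h']
    ring
  refine ⟨⟨hx, _, _, h0, h1⟩, ?_⟩
  rw [val_eq hx h0 h1, val_eq hx hg h, val_eq hx hg' h', D.ext_mul, D.ext_mul]
  field_simp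

lemma RegAt.neg {a : D.K} {x : X} (ha : D.RegAt a x) :
    D.RegAt (-a) x ∧ D.val (-a) x = -D.val a x := by
  have h1 := (regAt_const (D := D) (-1) ha.aff).mul ha
  rw [map_neg, map_one, neg_one_mul] at h1
  refine ⟨h1.1, ?_⟩
  rw [h1.2, ← map_one (algebraMap ℂ D.K), ← map_neg, val_const _ ha.aff]
  ring

lemma RegAt.sub {a b : D.K} {x : X} (ha : D.RegAt a x) (hb : D.RegAt b x) :
    D.RegAt (a - b) x ∧ D.val (a - b) x = D.val a x - D.val b x := by
  have h1 := ha.add hb.neg.1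
  rw [← sub_eq_add_neg, hb.neg.2] at h1
  rw [sub_eq_add_neg (D.val a x)]
  exact h1

lemma RegAt.pow {a : D.K} {x : X} (ha : D.RegAt a x) (k : ℕ) :
    D.RegAt (a ^ k) x ∧ D.val (a ^ k) x = D.val a x ^ k := by
  induction k with
  | zero =>
    rw [pow_zero, pow_zero]
    exact ⟨regAt_one ha.aff, val_one ha.aff⟩
  | succ k ih =>
    rw [pow_succ, pow_succ]
    have := ih.1.mul ha
    rw [ih.2] at this
    exact this

lemma RegAt.inv {a : D.K} {x : X} (ha : D.RegAt a x) (h0 : D.val a x ≠ 0) :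
    D.RegAt a⁻¹ x ∧ D.val a⁻¹ x = (D.val a x)⁻¹ := by
  obtain ⟨hx, f, g, hg, h⟩ := ha
  rw [val_eq hx hg h] at h0 ⊢
  have hf : D.ext f x ≠ 0 := fun h1 => h0 (by rw [h1, zero_div])
  have ha0 : a ≠ 0 := by
    rintro rfl
    rw [zero_mul] at h
    have : f = 0 := by
      apply IsFractionRing.injective D.R D.K
      rw [← h, map_zero]
    rw [this, D.ext_zero] at hf
    exact hf rfl
  have h1 : a⁻¹ * algebraMap D.R D.K f = algebraMap D.R D.K g := by
    rw [← h, inv_mul_cancel_left₀ ha0]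
  refine ⟨⟨hx, _, _, hf, h1⟩, ?_⟩
  rw [val_eq hx hf h1, inv_div]

variable (D) in
/-- The local ring at `x`. -/
def O {x : X} (hx : x ∈ D.Aff) : Subalgebra ℂ D.K where
  carrier := {a | D.RegAt a x}
  mul_mem' ha hb := (RegAt.mul ha hb).1
  add_mem' ha hb := (RegAt.add ha hb).1
  algebraMap_mem' c := regAt_const c hx

variable (D) in
/-- Evaluation on the local ring at `x`. -/
def evO {x : X} (hx : x ∈ D.Aff) : D.O hx →ₐ[ℂ] ℂ where
  toFun a := D.val a x
  map_one' := val_one hx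
  map_mul' a b := (RegAt.mul a.2 b.2).2
  map_zero' := val_zero hx
  map_add' a b := (RegAt.add a.2 b.2).2
  commutes' c := val_const c hx

/-- polynomials in regular elements -/
lemma RegAt.aeval_mv {ι : Type*} {a : ι → D.K} {x : X} (hx : x ∈ D.Aff)
    (ha : ∀ i, D.RegAt (a i) x) (P : MvPolynomial ι ℂ) :
    D.RegAt (MvPolynomial.aeval a P) x ∧
      D.val (MvPolynomial.aeval a P) x = MvPolynomial.eval (fun i => D.val (a i) x) P := by
  induction P using MvPolynomial.induction_on with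
  | C c => simpa using ⟨regAt_const c hx, val_const c hx⟩
  | add p q hp hq =>
    rw [map_add, map_add, ← hp.2, ← hq.2]
    exact hp.1.add hq.1
  | mul_X p i hp =>
    rw [map_mul, map_mul, MvPolynomial.aeval_X, MvPolynomial.eval_X, ← hp.2]
    exact hp.1.mul (ha i)

section manifold

/-- a rational function which is regular at `x` is regular and holomorphic near `x` -/
lemma RegAt.eventually {a : D.K} {x : X} (ha : D.RegAt a x) :
    (∀ᶠ y in 𝓝 x, D.RegAt a y) ∧ HolAt n (D.val a) x := by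
  obtain ⟨hx, f, g, hg, h⟩ := ha
  have h1 := (D.ext_holAt g hx).continuousAt.eventually_ne hg
  have h2 : ∀ᶠ y in 𝓝 x, D.RegAt a y ∧ D.ext f y / D.ext g y = D.val a y := by
    filter_upwards [h1, D.isOpen_aff.mem_nhds hx] with y hy hya
    exact ⟨⟨hya, f, g, hy, h⟩, (val_eq hya hy h).symm⟩
  refine ⟨h2.mono fun y hy => hy.1, ?_⟩
  exact ((D.ext_holAt f hx).div (D.ext_holAt g hx) hg).congr (h2.mono fun y hy => hy.2)

lemma exists_regAt (a : D.K) {x : X} (hx : x ∈ D.Aff) {V : Set X} (hV : V ∈ 𝓝 x) :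
    ∃ y ∈ V, D.RegAt a y := by
  obtain ⟨f, g, hg, rfl⟩ := IsFractionRing.div_surjective (A := D.R) a
  obtain ⟨y, hyV, hya, hy⟩ := D.exists_ne_of_ne (nonZeroDivisors.ne_zero hg) hx hV
  refine ⟨y, hyV, hya, f, g, hy, ?_⟩
  rw [div_mul_cancel₀]
  rw [ne_eq, FaithfulSMul.algebraMap_eq_zero_iff]
  exact nonZeroDivisors.ne_zero hg

lemma exists_val_ne {a : D.K} (ha : a ≠ 0) {x : X} (hx : x ∈ D.Aff) {V : Set X}
    (hV : V ∈ 𝓝 x) : ∃ y ∈ V, D.RegAt a y ∧ D.val a y ≠ 0 := by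
  obtain ⟨f, g, hg, rfl⟩ := IsFractionRing.div_surjective (A := D.R) a
  have hf : f ≠ 0 := by
    rintro rfl
    rw [map_zero, zero_div] at ha
    exact ha rfl
  have hg0 := nonZeroDivisors.ne_zero hg
  obtain ⟨y, hyV, hya, hy⟩ := D.exists_ne_of_ne (mul_ne_zero hf hg0) hx hV
  rw [D.ext_mul] at hy
  have h1 : algebraMap D.R D.K f / algebraMap D.R D.K g * algebraMap D.R D.K g =
      algebraMap D.R D.K f := by
    rw [div_mul_cancel₀]
    rwa [ne_eq, FaithfulSMul.algebraMap_eq_zero_iff]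
  refine ⟨y, hyV, ⟨hya, f, g, right_ne_zero_of_mul hy, h1⟩, ?_⟩
  rw [val_eq hya (right_ne_zero_of_mul hy) h1]
  exact div_ne_zero (left_ne_zero_of_mul hy) (right_ne_zero_of_mul hy)

/-- identity theorem -/
lemma eq_zero_of_val {a : D.K} {x : X} (hx : x ∈ D.Aff) {V : Set X} (hV : V ∈ 𝓝 x)
    (h : ∀ y ∈ V, D.RegAt a y → D.val a y = 0) : a = 0 := by
  by_contra ha
  obtain ⟨y, hyV, hy, hy0⟩ := exists_val_ne ha hx hV
  exact hy0 (h y hyV hy)

end manifold

end ProjData

end Vale.Agent.P299.H908
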